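import Mathlib.Analysis.Normed.Module.Basic
import Mathlib.Analysis.Normed.Operator.NormedSpace
import Mathlib.LinearAlgebra.FiniteDimensional.Basic
import Mathlib.Topology.MetricSpace.Basic
import Mathlib.Topology.Algebra.Module.Basic

/-!
Lipschitz-free spaces and the bounded approximation property, exactly as in the statement
of P090.
-/

namespace Vale.Agent.P090

variable (M : Type) [MetricSpace M] (o : M)

/-- The Lipschitz functions vanishing at the base point, as a submodule of all functions. -/
def lipSubmodule : Submodule ℝ (M → ℝ) where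
  carrier := {f | f o = 0 ∧ ∃ C : ℝ, 0 ≤ C ∧ ∀ x y, |f x - f y| ≤ C * dist x y}
  zero_mem' := ⟨rfl, 0, le_rfl, by simp⟩
  add_mem' := by
    rintro f g ⟨hf, C, hC, hfC⟩ ⟨hg, C', hC', hgC⟩
    refine ⟨by simp [hf, hg], C + C', add_nonneg hC hC', fun x y => ?_⟩
    calc |(f + g) x - (f + g) y| = |(f x - f y) + (g x - g y)| := by
          simp only [Pi.add_apply]; ring_nf
      _ ≤ |f x - f y| + |g x - g y| := abs_add_le _ _
      _ ≤ (C + C') * dist x y := by nlinarith [hfC x y, hgC x y]
  smul_mem' := by
    rintro c f ⟨hf, C, hC, hfC⟩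
    refine ⟨by simp [hf], |c| * C, mul_nonneg (abs_nonneg _) hC, fun x y => ?_⟩
    rw [Pi.smul_apply, Pi.smul_apply, smul_eq_mul, smul_eq_mul, ← mul_sub, abs_mul, mul_assoc]
    exact mul_le_mul_of_nonneg_left (hfC x y) (abs_nonneg _)

/-- The space `Lip₀(M)`. -/
def Lip0 : Type := ↥(lipSubmodule M o)

noncomputable instance : AddCommGroup (Lip0 M o) :=
  inferInstanceAs (AddCommGroup ↥(lipSubmodule M o))

noncomputable instance : Module ℝ (Lip0 M o) :=
  inferInstanceAs (Module ℝ ↥(lipSubmodule M o))

variable {M o}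

/-- The underlying function of an element of `Lip₀(M)`. -/
def Lip0.toFun (f : Lip0 M o) : M → ℝ := Subtype.val f

theorem Lip0.map_base (f : Lip0 M o) : f.toFun o = 0 := (Subtype.property f).1

theorem Lip0.exists_bound (f : Lip0 M o) :
    ∃ C : ℝ, 0 ≤ C ∧ ∀ x y, |f.toFun x - f.toFun y| ≤ C * dist x y := (Subtype.property f).2

/-- The Lipschitz constant: the least admissible constant. -/
noncomputable def lipConst (f : Lip0 M o) : ℝ :=
  sInf {C : ℝ | 0 ≤ C ∧ ∀ x y, |f.toFun x - f.toFun y| ≤ C * dist x y}

theorem lipConst_le {f : Lip0 M o} {C : ℝ} (hC : 0 ≤ C)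
    (h : ∀ x y, |f.toFun x - f.toFun y| ≤ C * dist x y) : lipConst f ≤ C :=
  csInf_le ⟨0, fun _ h => h.1⟩ ⟨hC, h⟩

theorem lipConst_nonneg (f : Lip0 M o) : 0 ≤ lipConst f :=
  le_csInf f.exists_bound (fun _ h => h.1)

theorem abs_sub_le_lipConst (f : Lip0 M o) (x y : M) :
    |f.toFun x - f.toFun y| ≤ lipConst f * dist x y := by
  rcases eq_or_ne x y with rfl | hxy
  · simp
  · have hd : 0 < dist x y := dist_pos.2 hxy
    rw [← div_le_iff₀ hd]
    exact le_csInf f.exists_bound (fun C hC => (div_le_iff₀ hd).2 (hC.2 x y))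

/-- The Lipschitz constant is a group norm on `Lip₀(M)`. -/
noncomputable def lipNorm : AddGroupNorm (Lip0 M o) where
  toFun := lipConst
  map_zero' := le_antisymm
    (lipConst_le le_rfl (fun x y => by simp [Lip0.toFun, show (Subtype.val (0 : Lip0 M o)) = 0 from rfl]))
    (lipConst_nonneg _)
  add_le' := fun f g => by
    refine lipConst_le (add_nonneg (lipConst_nonneg f) (lipConst_nonneg g)) (fun x y => ?_)
    calc |(f + g).toFun x - (f + g).toFun y|
        = |(f.toFun x - f.toFun y) + (g.toFun x - g.toFun y)| := by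
          simp only [Lip0.toFun, show Subtype.val (f + g) = Subtype.val f + Subtype.val g from rfl,
            Pi.add_apply]; ring_nf
      _ ≤ |f.toFun x - f.toFun y| + |g.toFun x - g.toFun y| := abs_add_le _ _
      _ ≤ (lipConst f + lipConst g) * dist x y := by
          nlinarith [abs_sub_le_lipConst f x y, abs_sub_le_lipConst g x y]
  neg' := fun f => by
    have h : ∀ x, (-f).toFun x = -(f.toFun x) := fun _ => rfl
    unfold lipConst
    simp only [h, ← neg_sub', abs_neg]
  eq_zero_of_map_eq_zero' := fun f hf => by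
    have hf' : lipConst f = 0 := hf
    apply Subtype.ext
    funext x
    have := abs_sub_le_lipConst f x o
    rw [hf', zero_mul, f.map_base, sub_zero] at this
    exact abs_nonpos_iff.1 this

noncomputable instance : NormedAddCommGroup (Lip0 M o) :=
  lipNorm.toNormedAddCommGroup

theorem norm_def (f : Lip0 M o) : ‖f‖ = lipConst f := rfl

noncomputable instance : NormedSpace ℝ (Lip0 M o) where
  norm_smul_le := fun c f => by
    rw [norm_def, norm_def, Real.norm_eq_abs]
    refine lipConst_le (mul_nonneg (abs_nonneg _) (lipConst_nonneg f)) (fun x y => ?_)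
    have h : ∀ x, (c • f).toFun x = c * f.toFun x := fun _ => rfl
    rw [h, h, ← mul_sub, abs_mul, mul_assoc]
    exact mul_le_mul_of_nonneg_left (abs_sub_le_lipConst f x y) (abs_nonneg _)

variable (M o)

/-- Evaluation at a point, as an element of the dual of `Lip₀(M)`. -/
noncomputable def delta (x : M) : Lip0 M o →L[ℝ] ℝ :=
  LinearMap.mkContinuous
    { toFun := fun f => f.toFun x
      map_add' := fun _ _ => rfl
      map_smul' := fun _ _ => rfl }
    (dist x o)
    (fun f => by
      have := abs_sub_le_lipConst f x o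
      rw [f.map_base, sub_zero] at this
      rw [Real.norm_eq_abs, norm_def, mul_comm]
      exact this)

/-- The Lipschitz-free space: the closed linear span of the evaluations in `Lip₀(M)*`. -/
noncomputable abbrev FreeSpace : Submodule ℝ (Lip0 M o →L[ℝ] ℝ) :=
  (Submodule.span ℝ (Set.range (delta M o))).topologicalClosure

/-- The bounded approximation property: there is a finite `lam ≥ 1` such that on every compact
set the identity is uniformly approximated by bounded finite-rank operators of norm at most
`lam`. -/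
def HasBAP (X : Type) [NormedAddCommGroup X] [NormedSpace ℝ X] : Prop :=
  ∃ lam : ℝ, 1 ≤ lam ∧ ∀ C : Set X, IsCompact C → ∀ ε : ℝ, 0 < ε →
    ∃ T : X →L[ℝ] X, FiniteDimensional ℝ ↥(LinearMap.range T.toLinearMap) ∧ ‖T‖ ≤ lam ∧
      ∀ u ∈ C, ‖T u - u‖ < ε

end Vale.Agent.P090
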