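import Vale.Agent.P090.Peel
import Vale.Agent.P090.Defs
import Mathlib.Analysis.Normed.Module.FiniteDimension
import Mathlib.LinearAlgebra.Finsupp.LinearCombination
import Mathlib.Data.Finsupp.Basic

/-!
From the bounded approximation property to finitely supported extensions.
-/

namespace Vale.Agent.P090

open Finset

/-- Injection of the `n`-th piece. -/
def inj (n : ℕ) (x : Piece n) : Space := some ⟨n, x⟩

theorem inj_injective (n : ℕ) : Function.Injective (inj n) := fun x y h => by
  simpa [inj] using h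

open Classical in
/-- Extension by zero. -/
noncomputable def ext0 (n : ℕ) (f : Piece n → ℝ) : Space → ℝ
  | none => 0
  | some x => if h : x.1 = n then f (h ▸ x.2) else 0

theorem ext0_inj (n : ℕ) (f : Piece n → ℝ) (x : Piece n) : ext0 n f (inj n x) = f x := by
  simp [ext0, inj]

theorem ext0_of_ne {n k : ℕ} (h : k ≠ n) (f : Piece n → ℝ) (x : Piece k) :
    ext0 n f (some ⟨k, x⟩) = 0 := by
  simp [ext0, h]

theorem ext0_lip {n : ℕ} {f : Piece n → ℝ} {L : ℝ} (hL : 0 ≤ L) (hD : 1 ≤ L * cDiam n)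
    (hb : ∀ x, |f x| ≤ 1) (hl : ∀ x y, |f x - f y| ≤ L * dP x y) (a b : Space) :
    |ext0 n f a - ext0 n f b| ≤ L * dist a b := by
  have hnn : 0 ≤ L * dist a b := mul_nonneg hL dist_nonneg
  have key : ∀ (k : ℕ) (x : Piece n), cDiam n ≤ k → |f x| ≤ L * (k : ℝ) := fun k x hk =>
    (hb x).trans (hD.trans (mul_le_mul_of_nonneg_left (by exact_mod_cast hk) hL))
  rcases a with _ | ⟨k, x⟩ <;> rcases b with _ | ⟨l, y⟩
  · simpa [ext0] using hnn
  · by_cases hl' : l = n
    · subst hl'
      rw [show ext0 l f none = 0 from rfl, show ext0 l f (some ⟨l, y⟩) = f y from ext0_inj l f y,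
        zero_sub, abs_neg, dist_eq]
      exact key _ y (le_of_eq rfl)
    · rw [ext0_of_ne hl']
      simpa [ext0] using hnn
  · by_cases hk : k = n
    · subst hk
      rw [show ext0 k f none = 0 from rfl, show ext0 k f (some ⟨k, x⟩) = f x from ext0_inj k f x,
        sub_zero, dist_eq]
      exact key _ x (le_of_eq rfl)
    · rw [ext0_of_ne hk]
      simpa [ext0] using hnn
  · by_cases hk : k = n <;> by_cases hl' : l = n
    · subst hk; subst hl'
      rw [show ext0 l f (some ⟨l, x⟩) = f x from ext0_inj l f x,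
        show ext0 l f (some ⟨l, y⟩) = f y from ext0_inj l f y, dist_eq, dS_same]
      exact hl x y
    · subst hk
      rw [show ext0 k f (some ⟨k, x⟩) = f x from ext0_inj k f x, ext0_of_ne hl', sub_zero,
        dist_eq, dS_ne (Ne.symm hl')]
      exact key _ x (Nat.le_add_right _ _)
    · subst hl'
      rw [show ext0 l f (some ⟨l, y⟩) = f y from ext0_inj l f y, ext0_of_ne hk, zero_sub,
        abs_neg, dist_eq, dS_ne hk]
      exact key _ y (Nat.le_add_left _ _)
    · rw [ext0_of_ne hk, ext0_of_ne hl', sub_self, abs_zero]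
      exact hnn

/-- A bounded Lipschitz function on a piece as an element of `Lip₀`. -/
noncomputable def toLip0 {n : ℕ} (f : Piece n → ℝ) {L : ℝ} (hL : 0 ≤ L) (hD : 1 ≤ L * cDiam n)
    (hb : ∀ x, |f x| ≤ 1) (hl : ∀ x y, |f x - f y| ≤ L * dP x y) : Lip0 Space none :=
  ⟨ext0 n f, rfl, L, hL, ext0_lip hL hD hb hl⟩

theorem norm_toLip0 {n : ℕ} (f : Piece n → ℝ) {L : ℝ} (hL : 0 ≤ L) (hD : 1 ≤ L * cDiam n)
    (hb : ∀ x, |f x| ≤ 1) (hl : ∀ x y, |f x - f y| ≤ L * dP x y) :
    ‖toLip0 f hL hD hb hl‖ ≤ L :=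
  lipConst_le hL (ext0_lip hL hD hb hl)

theorem delta_norm_sub_le (x y : Space) :
    ‖delta Space none x - delta Space none y‖ ≤ dist x y := by
  refine ContinuousLinearMap.opNorm_le_bound _ dist_nonneg (fun f => ?_)
  rw [mul_comm]
  exact abs_sub_le_lipConst f x y

theorem delta_norm_le (x : Space) : ‖delta Space none x‖ ≤ dist x none := by
  refine ContinuousLinearMap.opNorm_le_bound _ dist_nonneg (fun f => ?_)
  have := abs_sub_le_lipConst f x none
  rw [f.map_base, sub_zero] at this
  rw [mul_comm]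
  exact this

/-- The evaluation as an element of the free space. -/
noncomputable def dF (x : Space) : FreeSpace Space none :=
  ⟨delta Space none x,
    Submodule.le_topologicalClosure _ (Submodule.subset_span (Set.mem_range_self x))⟩

/-- Finitely many evaluations approximate a norm-bounded part of a finite-dimensional subspace. -/
theorem finite_net {M : Type} [MetricSpace M] (o : M) (E : Submodule ℝ (Lip0 M o →L[ℝ] ℝ))
    (hE : E ≤ FreeSpace M o) [FiniteDimensional ℝ ↥E] (B : ℝ) {η : ℝ} (hη : 0 < η) :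
    ∃ N : Finset (M →₀ ℝ), ∀ v ∈ E, ‖v‖ ≤ B →
      ∃ c ∈ N, ‖v - Finsupp.linearCombination ℝ (delta M o) c‖ ≤ η := by
  classical
  haveI : ProperSpace ↥E := FiniteDimensional.proper ℝ ↥E
  obtain ⟨t, htf, ht⟩ :=
    Metric.totallyBounded_iff.1 (isCompact_closedBall (0 : ↥E) B).totallyBounded (η / 2)
      (half_pos hη)
  have happ : ∀ e : ↥E, ∃ c : M →₀ ℝ,
      ‖(e : Lip0 M o →L[ℝ] ℝ) - Finsupp.linearCombination ℝ (delta M o) c‖
        ≤ η / 2 := by
    intro e
    have hmem := hE e.2
    obtain ⟨u, hu, hd⟩ := Metric.mem_closure_iff.1 hmem (η / 2) (half_pos hη)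
    obtain ⟨c, rfl⟩ := Finsupp.mem_span_range_iff_exists_finsupp.1 hu
    refine ⟨c, le_trans (le_of_eq ?_) hd.le⟩
    rw [dist_eq_norm, Finsupp.linearCombination_apply]
  choose c hc using happ
  refine ⟨htf.toFinset.image c, fun v hv hvB => ?_⟩
  have hmem : (⟨v, hv⟩ : ↥E) ∈ ⋃ e ∈ t, Metric.ball e (η / 2) :=
    ht (mem_closedBall_zero_iff.2 hvB)
  simp only [Set.mem_iUnion, Metric.mem_ball, exists_prop] at hmem
  obtain ⟨e, he, hd⟩ := hmem
  refine ⟨c e, Finset.mem_image.2 ⟨e, htf.mem_toFinset.2 he, rfl⟩, ?_⟩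
  refine (norm_sub_le_norm_sub_add_norm_sub v (e : Lip0 M o →L[ℝ] ℝ) _).trans ?_
  have hd' : dist v (e : Lip0 M o →L[ℝ] ℝ) < η / 2 := hd
  rw [dist_eq_norm] at hd'
  linarith [hc e]

theorem apply_linearCombination {M : Type} [MetricSpace M] (o : M) (c : M →₀ ℝ)
    (F : Lip0 M o) :
    Finsupp.linearCombination ℝ (delta M o) c F = c.sum (fun z a => a * F.toFun z) := by
  rw [Finsupp.linearCombination_apply, Finsupp.sum, _root_.sum_apply]
  rfl

/-- The level of a point. -/
def lev {n : ℕ} : Piece n → ℕ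
  | .inl _ => 0
  | .inr z => z.1 + 1

theorem exists_approx (h : HasBAP (FreeSpace Space none)) : ∃ n m, Nonempty (Approx n m) := by
  classical
  obtain ⟨l, hl1, hl⟩ := h
  obtain ⟨n, hn⟩ : ∃ n : ℕ, l ≤ n := exists_nat_ge l
  set C : Set (FreeSpace Space none) := Set.range (fun a : GB n => dF (inj n (.inl a)))
  obtain ⟨T, hfin, hT, happ⟩ := hl C (Set.finite_range _).isCompact (1 / 2) (by norm_num)
  have hTn : ‖T‖ ≤ (lam n : ℝ) := hT.trans (hn.trans (by simp [lam]))
  have := hfin
  have : FiniteDimensional ℝ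
      ↥((LinearMap.range T.toLinearMap).map (FreeSpace Space none).subtype) :=
    Module.Finite.map _ _
  obtain ⟨N, hN⟩ := finite_net none
    ((LinearMap.range T.toLinearMap).map (FreeSpace Space none).subtype)
    (Submodule.map_subtype_le _ _)
    ((lam n : ℝ) * cDiam n) (show (0 : ℝ) < 1 / 4 by norm_num)
  have hbound : ∀ x : Piece n, ‖T (dF (inj n x))‖ ≤ (lam n : ℝ) * cDiam n := fun x => by
    refine (T.le_opNorm _).trans (mul_le_mul hTn ?_ ?_ (Nat.cast_nonneg _))
    · exact (delta_norm_le _).trans (le_of_eq rfl)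
    · exact norm_nonneg (dF (inj n x))
  choose c hcN hc using fun x => hN _
    (Submodule.mem_map_of_mem (LinearMap.mem_range_self T.toLinearMap (dF (inj n x)))) (hbound x)
  set μ : Piece n → Piece n →₀ ℝ := fun x =>
    (c x).comapDomain (inj n) (inj_injective n).injOn
  set m : ℕ := N.sup (fun b => (b.comapDomain (inj n) (inj_injective n).injOn).support.sup lev)
  refine ⟨n, m, ⟨⟨μ, ?_, ?_, ?_⟩⟩⟩
  · intro x z hz
    have h1 : z.1 + 1 ≤ (μ x).support.sup lev := Finset.le_sup (f := lev) hz
    have h2 : (μ x).support.sup lev ≤ m :=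
      Finset.le_sup (f := fun b => (b.comapDomain (inj n) (inj_injective n).injOn).support.sup lev)
        (hcN x)
    omega
  all_goals intro f L hL hD hb hl'
  all_goals
    set F := toLip0 f hL hD hb hl' with hF
    have hpair : ∀ x, pair (μ x) f = Finsupp.linearCombination ℝ (delta Space none) (c x) F := by
      intro x
      rw [apply_linearCombination, pair, Finsupp.sum, Finsupp.sum, Finsupp.comapDomain_support]
      rw [Finset.sum_preimage (inj n) _ _ (fun z => c x z * F.toFun z) (fun z _ hz => ?_)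
        |>.symm.trans (Finset.sum_congr rfl ?_) |>.symm]
      · intro y _
        show c x (inj n y) * ext0 n f (inj n y) = _
        rw [ext0_inj]
        rfl
      · show c x z * ext0 n f z = 0
        rcases z with _ | ⟨k, y⟩
        · exact mul_zero _
        · by_cases hk : k = n
          · subst hk
            exact absurd ⟨y, rfl⟩ hz
          · rw [ext0_of_ne hk, mul_zero]
    have herr : ∀ x, |(T (dF (inj n x)) : Lip0 Space none →L[ℝ] ℝ) F - pair (μ x) f| ≤ 1 / 4 * L := by
      intro x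
      rw [hpair, ← sub_apply, ← Real.norm_eq_abs]
      exact (ContinuousLinearMap.le_opNorm _ _).trans
        (mul_le_mul (hc x) (norm_toLip0 f hL hD hb hl') (norm_nonneg _) (by norm_num))
  · intro x y
    have h1 := abs_le.1 (herr x)
    have h2 := abs_le.1 (herr y)
    have h3 : |(T (dF (inj n x)) : Lip0 Space none →L[ℝ] ℝ) F
        - (T (dF (inj n y)) : Lip0 Space none →L[ℝ] ℝ) F| ≤ lam n * dP x y * L := by
      rw [← sub_apply, ← Real.norm_eq_abs, ← Submodule.coe_sub, ← T.map_sub]
      refine (ContinuousLinearMap.le_opNorm _ _).trans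
        (mul_le_mul ?_ (norm_toLip0 f hL hD hb hl') (norm_nonneg _) (by positivity))
      refine (T.le_opNorm _).trans (mul_le_mul hTn ?_ (norm_nonneg (dF (inj n x) - dF (inj n y))) (Nat.cast_nonneg _))
      refine (delta_norm_sub_le _ _).trans (le_of_eq ?_)
      rw [dist_eq, inj, inj, dS_same]
    have h4 := abs_le.1 h3
    rw [abs_le]
    constructor <;> nlinarith
  · intro a
    have h1 := abs_le.1 (herr (.inl a))
    have h2 : |(T (dF (inj n (.inl a))) : Lip0 Space none →L[ℝ] ℝ) F - f (.inl a)| ≤ 1 / 2 * L := by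
      have e : f (.inl a) = ((dF (inj n (.inl a))) : Lip0 Space none →L[ℝ] ℝ) F :=
        (ext0_inj n f _).symm
      rw [e, ← sub_apply, ← Real.norm_eq_abs, ← Submodule.coe_sub]
      exact (ContinuousLinearMap.le_opNorm _ _).trans
        (mul_le_mul (happ _ ⟨a, rfl⟩).le (norm_toLip0 f hL hD hb hl') (norm_nonneg _)
          (by norm_num))
    have h3 := abs_le.1 h2
    rw [abs_le]
    constructor <;> linarith

theorem not_hasBAP : ¬ HasBAP (FreeSpace Space none) := fun h => by
  obtain ⟨n, m, ⟨A⟩⟩ := exists_approx h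
  exact no_approx n m A

end Vale.Agent.P090
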