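import Vale.Agent.P090.Geometry
import Mathlib.Data.Fintype.BigOperators
import Mathlib.Algebra.BigOperators.Ring.Finset

/-!
First-moment counts over configurations.
-/

namespace Vale.Agent.P090

open Finset

variable {n J : ℕ}

/-- The number of configurations. -/
noncomputable def nCfg (n J : ℕ) : ℕ := Fintype.card (Cfg n J)

open Classical in
/-- Configurations with a given set of retained half-edges. -/
noncomputable def zeroSet (S : Finset (GL n J × Fin (cΔ n))) : Finset (Cfg n J) :=
  Finset.univ.filter (fun ω => ∀ e ∈ S, (ω e).val = 0)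

theorem cq_pos (n : ℕ) : 0 < cq n := by simp [cq, ct]

theorem ct_pos (n : ℕ) : 0 < ct n := by simp [ct]

theorem card_zeroSet (S : Finset (GL n J × Fin (cΔ n))) :
    (zeroSet S).card * cq n ^ S.card = nCfg n J := by
  classical
  have hq := cq_pos n
  have heq : zeroSet S = Fintype.piFinset
      (fun e => if e ∈ S then {(⟨0, hq⟩ : Fin (cq n))} else Finset.univ) := by
    ext ω
    simp only [zeroSet, Finset.mem_filter, Finset.mem_univ, true_and, Fintype.mem_piFinset]
    constructor
    · intro h e
      by_cases he : e ∈ S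
      · simp [if_pos he, Fin.ext_iff, h e he]
      · simp [if_neg he]
    · intro h e he
      have := h e
      rw [if_pos he, Finset.mem_singleton] at this
      rw [this]
  rw [heq, Fintype.card_piFinset, nCfg, Fintype.card_fun, Fintype.card_fin]
  rw [Finset.prod_congr rfl (g := fun e => if e ∈ S then 1 else cq n) (fun e _ => by
    by_cases he : e ∈ S <;> simp [he])]
  rw [Finset.prod_ite, Finset.prod_const_one, one_mul, Finset.prod_const, ← pow_add,
    Finset.filter_notMem_eq_sdiff, Finset.card_sdiff, Finset.inter_univ, Finset.card_univ,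
    Nat.sub_add_cancel (Finset.card_le_univ S)]

open Classical in
theorem card_zero (hJ : 1 ≤ J) (x : GL n J) (i : Fin (cΔ n)) :
    (Finset.univ.filter (fun ω : Cfg n J => Zero ω x i)).card * cq n ^ 2 = nCfg n J := by
  have hne : (x, i) ≠ (x * (PL n J).s i, i) := fun e =>
    (PL n J).mul_s_ne hJ x i (congrArg Prod.fst e).symm
  have h := card_zeroSet (n := n) {(x, i), (x * (PL n J).s i, i)}
  rw [Finset.card_pair hne] at h
  rw [← h]
  congr 2
  ext ω
  rw [zeroSet, Finset.mem_filter, Finset.mem_filter]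
  simp [Zero]

open Classical in
theorem card_zero_pair (hJ : 1 ≤ J) (x : GL n J) {i i' : Fin (cΔ n)} (hii : i ≠ i') :
    (Finset.univ.filter (fun ω : Cfg n J => Zero ω x i ∧ Zero ω x i')).card * cq n ^ 4
      = nCfg n J := by
  have h1 : x ≠ x * (PL n J).s i := ((PL n J).mul_s_ne hJ x i).symm
  have h2 : x ≠ x * (PL n J).s i' := ((PL n J).mul_s_ne hJ x i').symm
  have h := card_zeroSet (n := n)
    {(x, i), (x * (PL n J).s i, i), (x, i'), (x * (PL n J).s i', i')}
  have hcard : ({(x, i), (x * (PL n J).s i, i), (x, i'), (x * (PL n J).s i', i')} :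
      Finset (GL n J × Fin (cΔ n))).card = 4 := by
    rw [Finset.card_insert_of_notMem (by simp [h1, hii]),
      Finset.card_insert_of_notMem (by simp [hii]),
      Finset.card_insert_of_notMem (by simp [h2]), Finset.card_singleton]
  rw [hcard] at h
  rw [← h]
  congr 2
  ext ω
  rw [zeroSet, Finset.mem_filter, Finset.mem_filter]
  simp [Zero, and_assoc]

open Classical in
theorem sum_deg_le (hJ : 1 ≤ J) (x : GL n J) (i : Fin (cΔ n)) :
    cq n ^ 2 * ∑ ω ∈ Finset.univ.filter (fun ω : Cfg n J => Zero ω x i), deg ω x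
      ≤ (1 + cu n) * nCfg n J := by
  set Z := Finset.univ.filter (fun ω : Cfg n J => Zero ω x i)
  have hdeg : ∑ ω ∈ Z, deg ω x
      = ∑ i' : Fin (cΔ n), (Z.filter (fun ω => Zero ω x i')).card := by
    simp only [deg, Finset.card_filter]
    exact Finset.sum_comm
  have hq2 : 0 < cq n ^ 2 := pow_pos (cq_pos n) 2
  refine Nat.le_of_mul_le_mul_left ?_ hq2
  rw [hdeg, ← mul_assoc, ← pow_add, Finset.mul_sum]
  rw [← Finset.add_sum_erase _ _ (Finset.mem_univ i)]
  have hA : cq n ^ (2 + 2) * (Z.filter (fun ω => Zero ω x i)).card = cq n ^ 2 * nCfg n J := by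
    rw [← card_zero hJ x i, Finset.filter_filter]
    simp only [and_self]
    ring
  have hB : ∀ i' ∈ Finset.univ.erase i,
      cq n ^ (2 + 2) * (Z.filter (fun ω => Zero ω x i')).card = nCfg n J := by
    intro i' hi'
    rw [← card_zero_pair hJ x (Ne.symm (Finset.ne_of_mem_erase hi')), Finset.filter_filter,
      mul_comm]
  rw [hA, Finset.sum_congr rfl hB, Finset.sum_const, smul_eq_mul]
  have hΔ : (Finset.univ.erase i).card ≤ cΔ n :=
    (Finset.card_le_univ _).trans_eq (Fintype.card_fin _)
  calc cq n ^ 2 * nCfg n J + (Finset.univ.erase i).card * nCfg n J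
      ≤ cq n ^ 2 * nCfg n J + cΔ n * nCfg n J := by gcongr
    _ = cq n ^ 2 * ((1 + cu n) * nCfg n J) := by rw [cΔ]; ring

open Classical in
theorem card_overfull (hJ : 1 ≤ J) (x : GL n J) (i : Fin (cΔ n)) :
    4 * cq n ^ 2 * (Finset.univ.filter (fun ω : Cfg n J => Zero ω x i ∧ ct n < deg ω x)).card
      ≤ nCfg n J := by
  set Z := Finset.univ.filter (fun ω : Cfg n J => Zero ω x i)
  set O := Finset.univ.filter (fun ω : Cfg n J => Zero ω x i ∧ ct n < deg ω x)
  have h1 : ct n * O.card ≤ ∑ ω ∈ Z, deg ω x := by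
    calc ct n * O.card = ∑ ω ∈ O, ct n := by rw [Finset.sum_const, smul_eq_mul, mul_comm]
      _ ≤ ∑ ω ∈ O, deg ω x := Finset.sum_le_sum (fun ω hω => (Finset.mem_filter.1 hω).2.2.le)
      _ ≤ ∑ ω ∈ Z, deg ω x := Finset.sum_le_sum_of_subset
          (fun ω hω => Finset.mem_filter.2 ⟨Finset.mem_univ _, (Finset.mem_filter.1 hω).2.1⟩)
  refine Nat.le_of_mul_le_mul_left ?_ (show 0 < 1 + cu n by omega)
  calc (1 + cu n) * (4 * cq n ^ 2 * O.card) = cq n ^ 2 * (ct n * O.card) := by rw [ct]; ring
    _ ≤ cq n ^ 2 * ∑ ω ∈ Z, deg ω x := Nat.mul_le_mul_left _ h1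
    _ ≤ (1 + cu n) * nCfg n J := sum_deg_le hJ x i

open Classical in
theorem card_kept (hJ : 1 ≤ J) (x : GL n J) (i : Fin (cΔ n)) :
    nCfg n J ≤ 2 * cq n ^ 2 * (Finset.univ.filter (fun ω : Cfg n J => Kept ω x i)).card := by
  set y := x * (PL n J).s i with hy
  set Z := Finset.univ.filter (fun ω : Cfg n J => Zero ω x i)
  set A := Finset.univ.filter (fun ω : Cfg n J => Kept ω x i)
  set B := Finset.univ.filter (fun ω : Cfg n J => Zero ω x i ∧ ct n < deg ω x)
  set C := Finset.univ.filter (fun ω : Cfg n J => Zero ω y i ∧ ct n < deg ω y)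
  have hsub : Z ⊆ A ∪ (B ∪ C) := by
    intro ω hω
    have hz := (Finset.mem_filter.1 hω).2
    simp only [A, B, C, Finset.mem_union, Finset.mem_filter, Finset.mem_univ, true_and]
    by_cases hb : ct n < deg ω x
    · exact Or.inr (Or.inl ⟨hz, hb⟩)
    by_cases hc : ct n < deg ω y
    · refine Or.inr (Or.inr ⟨⟨hz.2, ?_⟩, hc⟩)
      rw [hy]
      exact (congrArg (fun w => (ω (w, i)).val) (mul_s_s x i)).trans hz.1
    · exact Or.inl ⟨hz, not_lt.1 hb, not_lt.1 hc⟩
  have hcard : Z.card ≤ A.card + (B.card + C.card) :=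
    (Finset.card_le_card hsub).trans ((Finset.card_union_le _ _).trans
      (Nat.add_le_add_left (Finset.card_union_le _ _) _))
  have hZ : Z.card * cq n ^ 2 = nCfg n J := card_zero hJ x i
  have hB : 4 * cq n ^ 2 * B.card ≤ nCfg n J := card_overfull hJ x i
  have hC : 4 * cq n ^ 2 * C.card ≤ nCfg n J := card_overfull hJ y i
  have h4 := Nat.mul_le_mul_left (4 * cq n ^ 2) hcard
  nlinarith

/-- The half-edges along a walk. -/
def halfEdges : List (Fin (cΔ n)) → GL n J → List (GL n J × Fin (cΔ n))
  | [], _ => []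
  | i :: w, x => (x, i) :: (x * (PL n J).s i, i) :: halfEdges w (x * (PL n J).s i)

theorem length_halfEdges : ∀ (w : List (Fin (cΔ n))) (x : GL n J),
    (halfEdges w x).length = 2 * w.length
  | [], _ => rfl
  | i :: w, x => by simp only [halfEdges, List.length_cons, length_halfEdges w]; omega

theorem mem_halfEdges : ∀ (w : List (Fin (cΔ n))) (y z : GL n J) (c : Fin (cΔ n)),
    (z, c) ∈ halfEdges w y → ∃ u, u <+: w ∧ z = y * (u.map (PL n J).s).prod ∧
      (u ≠ [] ∨ w.head? = some c)
  | [], y, z, c, h => by simp [halfEdges] at h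
  | i :: w, y, z, c, h => by
      simp only [halfEdges, List.mem_cons, Prod.mk.injEq] at h
      rcases h with ⟨rfl, rfl⟩ | ⟨rfl, rfl⟩ | h
      · exact ⟨[], List.nil_prefix, by simp, Or.inr rfl⟩
      · exact ⟨[c], by simp, by simp, Or.inl (by simp)⟩
      · obtain ⟨u, hu, hz, -⟩ := mem_halfEdges w _ z c h
        exact ⟨i :: u, List.cons_prefix_cons.2 ⟨rfl, hu⟩, by simp [hz, mul_assoc],
          Or.inl (by simp)⟩

theorem nodup_halfEdges : ∀ (w : List (Fin (cΔ n))) (x : GL n J),
    w.IsChain (· ≠ ·) → w.length ≤ J → (halfEdges w x).Nodup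
  | [], _, _, _ => List.nodup_nil
  | i :: w, x, hc, hl => by
      have hJ : 1 ≤ J := by simp only [List.length_cons] at hl; omega
      have hl' : w.length ≤ J := by simp only [List.length_cons] at hl; omega
      rw [halfEdges, List.nodup_cons, List.nodup_cons]
      refine ⟨?_, ?_, nodup_halfEdges w _ hc.tail hl'⟩
      · intro hmem
        rcases List.mem_cons.1 hmem with e | hmem
        · exact (PL n J).mul_s_ne hJ x i (congrArg Prod.fst e).symm
        · obtain ⟨u, hu, hz, -⟩ := mem_halfEdges w _ _ _ hmem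
          have hp : (i :: u) <+: (i :: w) := List.cons_prefix_cons.2 ⟨rfl, hu⟩
          have h1 : (((i :: u)).map (PL n J).s).prod = 1 := by
            rw [List.map_cons, List.prod_cons]
            have := hz.symm
            rwa [mul_assoc, mul_eq_left] at this
          have hlen := hp.length_le.trans hl
          obtain ⟨v, hv⟩ := hp
          have := (PL n J).inj (i :: u) (show List.IsChain (· ≠ ·) ((i :: u) ++ v) by rw [hv]; exact hc).left_of_append hlen h1
          simp at this
      · intro hmem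
        obtain ⟨u, hu, hz, hor⟩ := mem_halfEdges w _ _ _ hmem
        have h1 : (u.map (PL n J).s).prod = 1 := mul_eq_left.1 hz.symm
        have hlen := hu.length_le.trans hl'
        obtain ⟨v, hv⟩ := hu
        have hct : w.IsChain (· ≠ ·) := hc.tail
        rw [← hv] at hct
        have hu0 := (PL n J).inj u hct.left_of_append hlen h1
        rcases hor with h | h
        · exact h hu0
        · cases w with
          | nil => simp at h
          | cons b v =>
            simp only [List.head?_cons, Option.some.injEq] at h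
            exact (List.isChain_cons_cons.1 hc).1 h.symm

/-- All edges of a walk are retained. -/
def ZeroWalk (ω : Cfg n J) : List (Fin (cΔ n)) → GL n J → Prop
  | [], _ => True
  | i :: w, x => Zero ω x i ∧ ZeroWalk ω w (x * (PL n J).s i)

theorem zeroWalk_halfEdges (ω : Cfg n J) : ∀ (w : List (Fin (cΔ n))) (x : GL n J),
    ZeroWalk ω w x → ∀ e ∈ halfEdges w x, (ω e).val = 0
  | [], _, _, e, he => by simp [halfEdges] at he
  | i :: w, x, ⟨hz, hw⟩, e, he => by
      simp only [halfEdges, List.mem_cons] at he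
      rcases he with rfl | rfl | he
      · exact hz.1
      · exact hz.2
      · exact zeroWalk_halfEdges ω w _ hw e he

open Classical in
theorem card_zeroWalk (w : List (Fin (cΔ n))) (x : GL n J) (hc : w.IsChain (· ≠ ·))
    (hl : w.length ≤ J) :
    (Finset.univ.filter (fun ω : Cfg n J => ZeroWalk ω w x)).card * cq n ^ (2 * w.length)
      ≤ nCfg n J := by
  rw [← card_zeroSet (n := n) (halfEdges w x).toFinset,
    List.toFinset_card_of_nodup (nodup_halfEdges w x hc hl), length_halfEdges]
  refine Nat.mul_le_mul_right _ (Finset.card_le_card ?_)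
  intro ω hω
  have hω' := (Finset.mem_filter.1 hω).2
  simp only [zeroSet, Finset.mem_filter, Finset.mem_univ, true_and, List.mem_toFinset]
  exact zeroWalk_halfEdges ω w x hω'

end Vale.Agent.P090
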