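import Vale.Agent.P090.Tests
import Vale.Agent.P090.Count
import Mathlib.Data.Finsupp.SMul
import Mathlib.Data.Sign.Basic

/-!
The combinatorial heart: no finitely supported Lipschitz extension of the evaluations.
-/

namespace Vale.Agent.P090

open Finset

variable {n : ℕ}

/-- Pairing of a finitely supported measure with a function. -/
noncomputable def pair (μ : Piece n →₀ ℝ) (f : Piece n → ℝ) : ℝ := μ.sum (fun z c => c * f z)

theorem pair_add (μ : Piece n →₀ ℝ) (f g : Piece n → ℝ) :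
    pair μ (fun z => f z + g z) = pair μ f + pair μ g := by
  simp [pair, Finsupp.sum, mul_add, Finset.sum_add_distrib]

theorem pair_sum {α : Type} (S : Finset α) (μ : Piece n →₀ ℝ) (c : α → ℝ)
    (f : α → Piece n → ℝ) :
    pair μ (fun z => ∑ a ∈ S, c a * f a z) = ∑ a ∈ S, c a * pair μ (f a) := by
  simp only [pair, Finsupp.sum, Finset.mul_sum]
  rw [Finset.sum_comm]
  exact Finset.sum_congr rfl (fun a _ => Finset.sum_congr rfl (fun z _ => by ring))

theorem pair_congr (μ : Piece n →₀ ℝ) {f g : Piece n → ℝ} (h : ∀ z ∈ μ.support, f z = g z) :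
    pair μ f = pair μ g :=
  Finset.sum_congr rfl (fun z hz => by show μ z * f z = μ z * g z; rw [h z hz])

theorem exists_sign (a : ℝ) : ∃ c : ℝ, |c| ≤ 1 ∧ c * a = |a| := by
  rcases le_total 0 a with h | h
  · exact ⟨1, by simp, by rw [abs_of_nonneg h, one_mul]⟩
  · exact ⟨-1, by simp, by rw [abs_of_nonpos h, neg_one_mul]⟩

/-- A finitely supported approximate extension of the evaluations, with labels of level below
`m` only. -/
structure Approx (n m : ℕ) where
  μ : Piece n → Piece n →₀ ℝ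
  supp : ∀ x z, (Sum.inr z : Piece n) ∈ (μ x).support → z.1 < m
  lip : ∀ (f : Piece n → ℝ) (L : ℝ), 0 ≤ L → 1 ≤ L * cDiam n → (∀ x, |f x| ≤ 1) →
    (∀ x y, |f x - f y| ≤ L * dP x y) →
      ∀ x y, |pair (μ x) f - pair (μ y) f| ≤ L * (lam n * dP x y + 1)
  anchor : ∀ (f : Piece n → ℝ) (L : ℝ), 0 ≤ L → 1 ≤ L * cDiam n → (∀ x, |f x| ≤ 1) →
    (∀ x y, |f x - f y| ≤ L * dP x y) →
      ∀ a, |pair (μ (.inl a)) f - f (.inl a)| ≤ L

theorem cL_diam (n : ℕ) : 1 ≤ cL n * cDiam n := by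
  rw [cL, div_mul_eq_mul_div, le_div_iff₀ (cRr_pos n)]
  have : ((2 * cR n : ℕ) : ℝ) ≤ (cDiam n : ℝ) := by
    exact_mod_cast (by simp only [cDiam]; omega : 2 * cR n ≤ cDiam n)
  push_cast at this
  linarith [cRr_pos n]

theorem one_div_r_diam (n : ℕ) : 1 ≤ 1 / (cr n : ℝ) * cDiam n := by
  rw [div_mul_eq_mul_div, one_mul, le_div_iff₀ (cr_pos n), one_mul]
  exact_mod_cast (by simp only [cDiam, cg, cρ]; omega : cr n ≤ cDiam n)

theorem cL_lam (n : ℕ) : cL n * (lam n * cR n + 2) ≤ cK n := by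
  have h1 : cL n * (cR n : ℝ) = 2 := div_mul_cancel₀ _ (cRr_pos n).ne'
  have h2 : (1 : ℝ) ≤ cR n := by exact_mod_cast cR_pos n
  have h3 : (cK n : ℝ) = 8 * lam n := by simp [cK]
  have h4 : (1 : ℝ) ≤ lam n := by exact_mod_cast (by simp [lam] : 1 ≤ lam n)
  have h5 : cL n ≤ 2 := by
    rw [cL, div_le_iff₀ (cRr_pos n)]; linarith
  calc cL n * (lam n * cR n + 2) = lam n * (cL n * cR n) + 2 * cL n := by ring
    _ ≤ cK n := by rw [h1, h3]; linarith

theorem cL_small (n : ℕ) : cL n * (lam n + 1) ≤ 1 / 24 := by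
  rw [cL, div_mul_eq_mul_div, div_le_iff₀ (cRr_pos n)]
  have h3 : (cR n : ℝ) = 96 * lam n := by simp [cR]
  have h4 : (1 : ℝ) ≤ lam n := by exact_mod_cast (by simp [lam] : 1 ≤ lam n)
  rw [h3]; linarith

theorem dP_lab_anchor (z : Lab n) : dP (.inr z : Piece n) (.inl (base z)) = cR n := by
  simp [dP, gd_self]

namespace Approx

variable {m : ℕ} (A : Approx n m)

theorem bound_of_zero (z : Lab n) (f : Piece n → ℝ) (hf : ∀ x, |f x| ≤ 1)
    (hl : ∀ x y, |f x - f y| ≤ cL n * dP x y) (h0 : f (.inl (base z)) = 0) :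
    |pair (A.μ (.inr z)) f| ≤ cK n := by
  have h1 := A.lip f (cL n) (cL_nonneg n) (cL_diam n) hf hl (.inr z) (.inl (base z))
  have h2 := A.anchor f (cL n) (cL_nonneg n) (cL_diam n) hf hl (base z)
  rw [dP_lab_anchor] at h1
  rw [h0, sub_zero] at h2
  have h3 := abs_sub_abs_le_abs_sub (pair (A.μ (.inr z)) f) (pair (A.μ (.inl (base z))) f)
  nlinarith [cL_lam n]

/-- Mass seen by the `toward` function. -/
noncomputable def tw (z : Lab n) (i : Fin (cΔ n)) : ℝ :=
  |pair (A.μ (.inr z)) (Tf m (base z) i)|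

theorem sum_tw (z : Lab n) : ∑ i, A.tw z i ≤ cK n := by
  choose c hc1 hc2 using fun i => exists_sign (pair (A.μ (.inr z)) (Tf m (base z) i))
  have h := A.bound_of_zero z (Tcombo m (base z) c) (Tcombo_abs m _ c hc1)
    (Tcombo_lip m _ c hc1) (Tcombo_inl_self m _ c)
  unfold Tcombo at h
  rw [pair_sum, Finset.sum_congr rfl (fun i _ => hc2 i)] at h
  exact (le_abs_self _).trans h

open Classical in
/-- Mass of one lift seen through one edge. -/
noncomputable def wE (z p : Lab n) (i : Fin (cΔ n)) : ℝ :=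
  if IsEdge i p then |pair (A.μ (.inr z)) (Ef m (base z) i p)| else 0

theorem cΔ_pos (n : ℕ) : 0 < cΔ n := by simp [cΔ, cu, cq, ct]

theorem univ_nonempty (n : ℕ) : (Finset.univ : Finset (Fin (cΔ n))).Nonempty :=
  ⟨⟨0, cΔ_pos n⟩, Finset.mem_univ _⟩

/-- Mass of one lift. -/
noncomputable def w (z p : Lab n) : ℝ := Finset.univ.sup' (univ_nonempty n) (A.wE z p)

theorem wE_nonneg (z p : Lab n) (i : Fin (cΔ n)) : 0 ≤ A.wE z p i := by
  classical
  unfold wE; split_ifs <;> simp

theorem w_nonneg (z p : Lab n) : 0 ≤ A.w z p :=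
  (A.wE_nonneg z p _).trans (Finset.le_sup' (A.wE z p) (Finset.mem_univ ⟨0, cΔ_pos n⟩))

open Classical in
/-- Labels below level `m` over a given base vertex. -/
noncomputable def fibre (m : ℕ) (h : GB n) : Finset (Lab n) :=
  (LabsBelow n m).filter (fun p => base p = h)

theorem sum_w (z : Lab n) : ∑ p ∈ fibre m (base z), A.w z p ≤ cK n := by
  classical
  have hmax : ∀ p, ∃ i, A.w z p = A.wE z p i := fun p => by
    obtain ⟨i, -, hi⟩ := Finset.exists_mem_eq_sup' (univ_nonempty n) (A.wE z p)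
    exact ⟨i, hi⟩
  choose ι hι using hmax
  set S := (fibre m (base z)).filter (fun p => IsEdge (ι p) p)
  have hS : ∀ p ∈ S, base p = base z ∧ IsEdge (ι p) p := fun p hp =>
    ⟨(Finset.mem_filter.1 (Finset.mem_filter.1 hp).1).2, (Finset.mem_filter.1 hp).2⟩
  choose c hc1 hc2 using fun p => exists_sign (pair (A.μ (.inr z)) (Ef m (base z) (ι p) p))
  obtain ⟨hb, hl⟩ := Ecombo_bound m (base z) S ι hS c hc1
  have h := A.bound_of_zero z (Ecombo m (base z) S ι c) hb hl (Ecombo_inl _ _ _ _ _ _)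
  unfold Ecombo at h
  rw [pair_sum, Finset.sum_congr rfl (fun p _ => hc2 p)] at h
  refine le_trans (le_of_eq ?_) ((le_abs_self _).trans h)
  rw [Finset.sum_filter]
  refine Finset.sum_congr rfl (fun p _ => ?_)
  rw [hι p, wE]

theorem le_w {z p : Lab n} {i : Fin (cΔ n)} (hp : IsEdge i p) :
    |pair (A.μ (.inr z)) (Ef m (base z) i p)| ≤ A.w z p := by
  classical
  refine le_trans (le_of_eq ?_) (Finset.le_sup' (A.wE z p) (Finset.mem_univ i))
  rw [wE, if_pos hp]

/-- The inequality at one edge. -/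
theorem edge_ineq (z : Lab n) (i : Fin (cΔ n)) (he : IsEdge i z) :
    (1 / 2 : ℝ) ≤ A.tw z i + A.tw (flip i z) i +
      ∑ p ∈ Lifts m (base z) i, min (A.w z p) (A.w (flip i z) (flip i p)) := by
  classical
  set h := base z
  set y := flip i z
  have hy : base y = nb h i := base_flip i z
  have hd : dP (.inr z : Piece n) (.inr y) ≤ 1 := by
    have : ld z y ≤ 1 := ld_flip he
    simp only [dP]; omega
  have hdR : (dP (.inr z : Piece n) (.inr y) : ℝ) ≤ 1 := by exact_mod_cast hd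
  have hsmall : cL n * (lam n * (dP (.inr z : Piece n) (.inr y) : ℝ) + 1) ≤ 1 / 24 := by
    refine le_trans (mul_le_mul_of_nonneg_left ?_ (cL_nonneg n)) (cL_small n)
    nlinarith [(Nat.cast_nonneg (lam n) : (0 : ℝ) ≤ lam n)]
  -- lower bound on the cut-off
  have hlow : (3 / 4 : ℝ) ≤ pair (A.μ (.inr z)) (Cf h i) := by
    have hnn : (0 : ℝ) ≤ 1 / (cr n : ℝ) := div_nonneg zero_le_one (cr_pos n).le
    have h1 := A.lip (Cf h i) _ hnn (one_div_r_diam n) (Cf_abs h i) (Cf_lip h i) (.inr z) (.inl h)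
    have h2 := A.anchor (Cf h i) _ hnn (one_div_r_diam n) (Cf_abs h i) (Cf_lip h i) h
    rw [dP_lab_anchor] at h1
    rw [show Cf h i (.inl h) = 1 from chi_self h i] at h2
    have h3 : 1 / (cr n : ℝ) * (lam n * cR n + 2) = 1 / 4 := by
      have : (cr n : ℝ) = 4 * (lam n * cR n + 2) := by simp [cr]
      rw [div_mul_eq_mul_div, one_mul, div_eq_iff (cr_pos n).ne', this]; ring
    have h4 := (abs_le.1 h1).1
    have h5 := (abs_le.1 h2).1
    nlinarith
  -- decomposition
  have hdec : pair (A.μ (.inr z)) (Cf h i) = pair (A.μ (.inr z)) (Tf m h i)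
      + pair (A.μ (.inr z)) (Tf m (nb h i) i)
      + ∑ p ∈ Lifts m h i, pair (A.μ (.inr z)) (Ef m h i p) := by
    have e : ∑ p ∈ Lifts m h i, pair (A.μ (.inr z)) (Ef m h i p)
        = pair (A.μ (.inr z)) (fun x => ∑ p ∈ Lifts m h i, (1 : ℝ) * Ef m h i p x) := by
      rw [pair_sum]; simp
    rw [e, ← pair_add, ← pair_add]
    refine pair_congr _ (fun x hx => ?_)
    rw [decomp h i x (fun q hq => A.supp _ q (hq ▸ hx))]
    simp
  -- the `toward` function of the other end
  have hT : pair (A.μ (.inr z)) (Tf m (nb h i) i) ≤ A.tw y i + 1 / 24 := by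
    have e : Tcombo m (nb h i) (fun k => if k = i then 1 else 0) = Tf m (nb h i) i := by
      funext x; simp [Tcombo, ite_mul]
    have hc : ∀ k : Fin (cΔ n), |(if k = i then (1 : ℝ) else 0)| ≤ 1 := fun k => by
      split_ifs <;> simp
    have h1 := A.lip _ (cL n) (cL_nonneg n) (cL_diam n) (Tcombo_abs m (nb h i) _ hc)
      (Tcombo_lip m (nb h i) _ hc) (.inr z) (.inr y)
    rw [e] at h1
    have h2 : pair (A.μ (.inr y)) (Tf m (nb h i) i) ≤ A.tw y i := by
      rw [tw, hy]; exact le_abs_self _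
    have h4 := (abs_le.1 h1).2
    linarith
  -- the edge functions
  have hE : ∑ p ∈ Lifts m h i, pair (A.μ (.inr z)) (Ef m h i p)
      ≤ ∑ p ∈ Lifts m h i, min (A.w z p) (A.w y (flip i p)) + 1 / 24 := by
    choose c hc1 hc2 using fun p => exists_sign
      (pair (A.μ (.inr z)) (Ef m h i p) - pair (A.μ (.inr y)) (Ef m h i p))
    obtain ⟨hb, hl⟩ := Ecombo_bound m h (Lifts m h i) (fun _ => i)
      (fun p hp => ⟨(mem_lifts.1 hp).2.1, (mem_lifts.1 hp).2.2⟩) c hc1
    have h1 := A.lip _ (cL n) (cL_nonneg n) (cL_diam n) hb hl (.inr z) (.inr y)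
    unfold Ecombo at h1
    rw [pair_sum, pair_sum, ← Finset.sum_sub_distrib] at h1
    simp only [← mul_sub, hc2] at h1
    have h2 : ∀ p ∈ Lifts m h i, pair (A.μ (.inr z)) (Ef m h i p) ≤
        min (A.w z p) (A.w y (flip i p))
          + |pair (A.μ (.inr z)) (Ef m h i p) - pair (A.μ (.inr y)) (Ef m h i p)| := by
      intro p hp
      have hpe := (mem_lifts.1 hp).2.2
      have a1 : |pair (A.μ (.inr z)) (Ef m h i p)| ≤ A.w z p := A.le_w hpe
      have a2 : |pair (A.μ (.inr y)) (Ef m h i p)| ≤ A.w y (flip i p) := by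
        have := A.le_w (z := y) hpe.flip
        rwa [hy, Ef_flip] at this
      have b1 := le_abs_self (pair (A.μ (.inr z)) (Ef m h i p))
      have b2 := le_abs_self (pair (A.μ (.inr y)) (Ef m h i p))
      have b3 := le_abs_self
        (pair (A.μ (.inr z)) (Ef m h i p) - pair (A.μ (.inr y)) (Ef m h i p))
      have b4 := abs_nonneg
        (pair (A.μ (.inr z)) (Ef m h i p) - pair (A.μ (.inr y)) (Ef m h i p))
      rcases le_total (A.w z p) (A.w y (flip i p)) with hle | hle
      · rw [min_eq_left hle]; linarith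
      · rw [min_eq_right hle]; linarith
    refine (Finset.sum_le_sum h2).trans ?_
    rw [Finset.sum_add_distrib]
    have := (le_abs_self _).trans h1
    linarith
  have h6 : pair (A.μ (.inr z)) (Tf m h i) ≤ A.tw z i := le_abs_self _
  linarith

end Approx

end Vale.Agent.P090
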