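import Vale.Agent.P090.Space
import Mathlib.Algebra.BigOperators.Fin
import Mathlib.Algebra.Order.BigOperators.Group.Finset
import Mathlib.Tactic.Linarith
import Mathlib.Tactic.Positivity

/-!
Directions in the tree-like balls of the base graph, cut-offs and the test functions.
-/

namespace Vale.Agent.P090

open Finset

variable {n : ℕ}

/-- The neighbour of `h` in direction `i`. -/
def nb (h : GB n) (i : Fin (cΔ n)) : GB n := h * (PB n).s i

theorem nb_nb (h : GB n) (i : Fin (cΔ n)) : nb (nb h i) i = h := by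
  rw [nb, nb, mul_assoc, (PB n).mul_self, mul_one]

theorem walk_single (h : GB n) (i : Fin (cΔ n)) : (PB n).moves.Walk [i] h (nb h i) :=
  ⟨nb h i, rfl, rfl⟩

theorem gd_nb (h : GB n) (i : Fin (cΔ n)) : gd h (nb h i) ≤ 1 :=
  (PB n).moves.cd_le_of_walk _ (walk_single h i)

theorem word_of_gd {h u : GB n} (hd : gd h u ≤ cρ n) :
    ∃ w, w.IsChain (· ≠ ·) ∧ w.length ≤ gd h u ∧ (PB n).moves.Walk w h u :=
  (PB n).moves.exists_walk_of_cd_lt (by
    have := cρ_lt n
    show gd h u < cg n
    omega)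

open Classical in
/-- The first colour of the geodesic from `h` to `u`, within radius `cρ`. -/
noncomputable def pre (h u : GB n) : Option (Fin (cΔ n)) :=
  if e : ∃ w : List (Fin (cΔ n)), w.IsChain (· ≠ ·) ∧ w.length ≤ cρ n ∧
      (PB n).moves.Walk w h u then e.choose.head? else none

theorem pre_eq {h u : GB n} {w : List (Fin (cΔ n))} (hc : w.IsChain (· ≠ ·))
    (hl : w.length ≤ cρ n) (hw : (PB n).moves.Walk w h u) : pre h u = w.head? := by
  classical
  have e : ∃ w : List (Fin (cΔ n)), w.IsChain (· ≠ ·) ∧ w.length ≤ cρ n ∧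
      (PB n).moves.Walk w h u := ⟨w, hc, hl, hw⟩
  obtain ⟨hc', hl', hw'⟩ := e.choose_spec
  rw [pre, dif_pos e]
  have := cρ_lt n
  rw [(PB n).walk_unique hc' hc (by omega) hw' hw]

theorem pre_self (h : GB n) : pre h h = none :=
  pre_eq (w := []) List.isChain_nil (Nat.zero_le _) rfl

theorem pre_nb (h : GB n) (i : Fin (cΔ n)) : pre h (nb h i) = some i :=
  pre_eq (w := [i]) (List.isChain_singleton i) (by simp [cρ]) (walk_single h i)

theorem pre_swap {h u : GB n} {i : Fin (cΔ n)} (hd : gd h u ≤ 2 * cr n + 1) :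
    pre h u = some i ↔ ¬ pre (nb h i) u = some i := by
  obtain ⟨w, hc, hl, hw⟩ := word_of_gd (h := h) (u := u) (by simp only [cρ]; omega)
  cases w with
  | nil =>
    simp only [Moves.Walk] at hw
    subst hw
    have h2 := pre_nb (nb h i) i
    rw [nb_nb] at h2
    simp [pre_self, h2]
  | cons a v =>
    have hlen : (a :: v).length ≤ cρ n := by simp only [cρ]; omega
    rw [pre_eq hc hlen hw, List.head?_cons, Option.some.injEq]
    obtain ⟨p', hp', hv⟩ := hw
    by_cases hai : a = i
    · subst hai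
      have hp'' : p' = nb h a := (Option.some.inj hp').symm
      subst hp''
      have hv' : v.length ≤ cρ n := by simp only [List.length_cons] at hlen; omega
      have hcv : v.IsChain (· ≠ ·) := hc.tail
      rw [pre_eq hcv hv' hv]
      refine iff_of_true rfl ?_
      cases v with
      | nil => simp
      | cons b v' =>
        simpa using (List.isChain_cons_cons.1 hc).1.symm
    · refine iff_of_false hai (not_not.2 ?_)
      have hw' : (PB n).moves.Walk (i :: a :: v) (nb h i) u :=
        ⟨h, congrArg some (nb_nb h i), p', hp', hv⟩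
      rw [pre_eq (List.isChain_cons_cons.2 ⟨Ne.symm hai, hc⟩)
        (by simp only [List.length_cons, cρ] at hl ⊢; omega) hw']
      rfl

theorem pre_step {h u : GB n} {j : Fin (cΔ n)} (hd : gd h u ≤ 2 * cr n + 1) (hu : u ≠ h)
    (hu' : nb u j ≠ h) : pre h u = pre h (nb u j) := by
  obtain ⟨w, hc, hl, hw⟩ := word_of_gd (h := h) (u := u) (by simp only [cρ]; omega)
  have hlen : w.length + 1 ≤ cρ n := by simp only [cρ]; omega
  have hne : w ≠ [] := fun e => by subst e; exact hu (Eq.symm hw)
  rw [pre_eq hc (by omega) hw]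
  obtain ⟨v, b, rfl⟩ : ∃ v b, w = v ++ [b] :=
    ⟨w.dropLast, w.getLast hne, (List.dropLast_concat_getLast hne).symm⟩
  by_cases hbj : b = j
  · subst hbj
    obtain ⟨r, hv, r', hr', hr''⟩ := ((PB n).moves.walk_append v [b] h u).1 hw
    simp only [Moves.Walk] at hr''
    subst hr''
    have hr : r = nb r' b := by
      rw [← Option.some.inj hr']
      exact (nb_nb r b).symm
    rw [← hr] at hu' ⊢
    have hv0 : v ≠ [] := fun e => by subst e; exact hu' (Eq.symm hv)
    rw [pre_eq hc.left_of_append (by simp only [List.length_append] at hlen; omega) hv,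
      List.head?_append_of_ne_nil _ hv0]
  · have hw' : (PB n).moves.Walk ((v ++ [b]) ++ [j]) h (nb u j) :=
      ((PB n).moves.walk_append _ _ _ _).2 ⟨u, hw, walk_single u j⟩
    have hc' : ((v ++ [b]) ++ [j]).IsChain (· ≠ ·) := by
      refine List.isChain_append.2 ⟨hc, List.isChain_singleton j, ?_⟩
      intro x hx y hy
      simp at hx hy
      subst hx; subst hy; exact hbj
    rw [pre_eq hc' (by simp only [List.length_append, List.length_singleton] at hlen ⊢; omega) hw',
      List.head?_append_of_ne_nil _ hne]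

/-- Clamp to `[0,1]`. -/
noncomputable def clamp (a : ℝ) : ℝ := max 0 (min 1 a)

theorem clamp_nonneg (a : ℝ) : 0 ≤ clamp a := le_max_left _ _
theorem clamp_le_one (a : ℝ) : clamp a ≤ 1 := max_le zero_le_one (min_le_left _ _)

theorem clamp_lip (a b : ℝ) : |clamp a - clamp b| ≤ |a - b| :=
  (abs_max_sub_max_le_max _ _ _ _).trans (max_le (by simp)
    ((abs_min_sub_min_le_max _ _ _ _).trans (max_le (by simp) le_rfl)))

/-- Cut-off around the edge `(h, i)` of the base graph. -/
noncomputable def chi (h : GB n) (i : Fin (cΔ n)) (u : GB n) : ℝ :=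
  clamp (2 - (min (gd h u) (gd (nb h i) u) : ℕ) / (cr n : ℝ))

theorem chi_nonneg (h : GB n) (i : Fin (cΔ n)) (u : GB n) : 0 ≤ chi h i u := clamp_nonneg _
theorem chi_le_one (h : GB n) (i : Fin (cΔ n)) (u : GB n) : chi h i u ≤ 1 := clamp_le_one _

theorem cr_pos (n : ℕ) : (0 : ℝ) < cr n := by
  have : 0 < cr n := by simp only [cr]; omega
  exact_mod_cast this

theorem cRr_pos (n : ℕ) : (0 : ℝ) < cR n := by exact_mod_cast cR_pos n

theorem chi_self (h : GB n) (i : Fin (cΔ n)) : chi h i h = 1 := by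
  simp [chi, gd_self, clamp]

theorem chi_symm (h : GB n) (i : Fin (cΔ n)) (u : GB n) : chi (nb h i) i u = chi h i u := by
  rw [chi, chi, nb_nb, min_comm]

theorem chi_eq_zero {h u : GB n} {i : Fin (cΔ n)} (hd : 2 * cr n + 1 ≤ gd h u) :
    chi h i u = 0 := by
  have h1 := gd_triangle h (nb h i) u
  have h2 := gd_nb h i
  have hm : ((2 * cr n : ℕ) : ℝ) ≤ ((min (gd h u) (gd (nb h i) u) : ℕ) : ℝ) := by
    exact_mod_cast (by omega : 2 * cr n ≤ min (gd h u) (gd (nb h i) u))
  push_cast at hm
  have h3 : 2 - ((min (gd h u) (gd (nb h i) u) : ℕ) : ℝ) / (cr n : ℝ) ≤ 0 := by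
    have : (2 : ℝ) ≤ ((min (gd h u) (gd (nb h i) u) : ℕ) : ℝ) / (cr n : ℝ) := by
      rw [le_div_iff₀ (cr_pos n)]; push_cast; linarith
    linarith
  exact max_eq_left ((min_le_right _ _).trans h3)

theorem chi_lip (h : GB n) (i : Fin (cΔ n)) (u v : GB n) :
    |chi h i u - chi h i v| ≤ (gd u v : ℝ) / cr n := by
  refine (clamp_lip _ _).trans ?_
  rw [show ∀ a b : ℝ, (2 - a / (cr n : ℝ)) - (2 - b / cr n) = (b - a) / cr n from
    fun a b => by ring, abs_div, abs_of_pos (cr_pos n), div_le_div_iff_of_pos_right (cr_pos n)]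
  have a1 := gd_triangle h u v
  have a2 := gd_triangle h v u
  have a3 := gd_triangle (nb h i) u v
  have a4 := gd_triangle (nb h i) v u
  have a5 := gd_comm u v
  rw [abs_le]
  constructor
  · have : ((min (gd h u) (gd (nb h i) u) : ℕ) : ℝ) ≤
        ((min (gd h v) (gd (nb h i) v) + gd u v : ℕ) : ℝ) := by
      exact_mod_cast (by omega)
    push_cast at this ⊢; linarith
  · have : ((min (gd h v) (gd (nb h i) v) : ℕ) : ℝ) ≤
        ((min (gd h u) (gd (nb h i) u) + gd u v : ℕ) : ℝ) := by
      exact_mod_cast (by omega)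
    push_cast at this ⊢; linarith

theorem chi_step_lip (h : GB n) (i : Fin (cΔ n)) (u : GB n) (j : Fin (cΔ n)) :
    |chi h i u - chi h i (nb u j)| ≤ 1 / cR n := by
  refine (chi_lip h i u (nb u j)).trans ?_
  have h1 : (gd u (nb u j) : ℝ) ≤ 1 := by exact_mod_cast gd_nb u j
  have h2 : (cR n : ℝ) ≤ cr n := by exact_mod_cast cR_le_cr n
  calc (gd u (nb u j) : ℝ) / cr n ≤ 1 / cr n :=
        div_le_div_of_nonneg_right h1 (cr_pos n).le
    _ ≤ 1 / cR n := one_div_le_one_div_of_le (cRr_pos n) h2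

/-- The other end of the `i`-edge at a label. -/
def flip (i : Fin (cΔ n)) (p : Lab n) : Lab n := ⟨p.1, p.2.1, p.2.2 * (PL n p.1).s i⟩

theorem flip_flip (i : Fin (cΔ n)) (p : Lab n) : flip i (flip i p) = p := by
  obtain ⟨J, ω, x⟩ := p
  exact congrArg (fun y => (⟨J, ω, y⟩ : Lab n)) (mul_s_s x i)

theorem base_flip (i : Fin (cΔ n)) (p : Lab n) : base (flip i p) = nb (base p) i := rfl

/-- The `i`-edge at the label `p` is retained. -/
def IsEdge (i : Fin (cΔ n)) (p : Lab n) : Prop := Kept p.2.1 p.2.2 i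

theorem IsEdge.flip {i : Fin (cΔ n)} {p : Lab n} (h : IsEdge i p) :
    IsEdge i (P090.flip i p) := Kept.symm h

theorem step_of_isEdge {i : Fin (cΔ n)} {p : Lab n} (h : IsEdge i p) :
    (labMoves n).step i p = some (P090.flip i p) := by
  classical
  exact if_pos h

theorem isEdge_of_step {i : Fin (cΔ n)} {p q : Lab n} (h : (labMoves n).step i p = some q) :
    IsEdge i p ∧ q = P090.flip i p := labMoves_step h

theorem ld_flip {i : Fin (cΔ n)} {p : Lab n} (h : IsEdge i p) : ld p (P090.flip i p) ≤ 1 :=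
  (labMoves n).cd_step (step_of_isEdge h)

/-- The bump around the edge `i` at `p`. -/
noncomputable def bump (i : Fin (cΔ n)) (p z : Lab n) : ℝ :=
  max 0 (1 - (min (ld p z) (ld (flip i p) z) : ℕ) / (cR n : ℝ))

theorem bump_nonneg (i : Fin (cΔ n)) (p z : Lab n) : 0 ≤ bump i p z := le_max_left _ _

theorem bump_le_one (i : Fin (cΔ n)) (p z : Lab n) : bump i p z ≤ 1 :=
  max_le zero_le_one (sub_le_self _ (by positivity))

theorem bump_flip (i : Fin (cΔ n)) (p z : Lab n) : bump i (flip i p) z = bump i p z := by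
  rw [bump, bump, flip_flip, min_comm]

theorem bump_at_flip (i : Fin (cΔ n)) (p : Lab n) : bump i p (flip i p) = 1 := by
  simp [bump, ld_self]

theorem bump_lip (i : Fin (cΔ n)) (p : Lab n) {z z' : Lab n} (h : ld z z' ≤ 1) :
    |bump i p z - bump i p z'| ≤ 1 / cR n := by
  refine (abs_max_sub_max_le_max _ _ _ _).trans (max_le (by simp) ?_)
  rw [show ∀ a b : ℝ, (1 - a / (cR n : ℝ)) - (1 - b / cR n) = (b - a) / cR n from
    fun a b => by ring, abs_div, abs_of_pos (cRr_pos n), div_le_div_iff_of_pos_right (cRr_pos n)]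
  have a1 := ld_triangle p z z'
  have a2 := ld_triangle p z' z
  have a3 := ld_triangle (flip i p) z z'
  have a4 := ld_triangle (flip i p) z' z
  have a5 := ld_comm z z'
  rw [abs_le]
  constructor
  · have : ((min (ld p z) (ld (flip i p) z) : ℕ) : ℝ) ≤
        ((min (ld p z') (ld (flip i p) z') + 1 : ℕ) : ℝ) := by exact_mod_cast (by omega)
    push_cast at this ⊢; linarith
  · have : ((min (ld p z') (ld (flip i p) z') : ℕ) : ℝ) ≤
        ((min (ld p z) (ld (flip i p) z) + 1 : ℕ) : ℝ) := by exact_mod_cast (by omega)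
    push_cast at this ⊢; linarith

theorem ld_le_of_bump {i : Fin (cΔ n)} {p z : Lab n} (hp : IsEdge i p) (h : bump i p z ≠ 0) :
    ld p z ≤ cR n := by
  by_contra hc
  apply h
  have h1 := ld_triangle p (P090.flip i p) z
  have h2 := ld_flip hp
  have hm : cR n ≤ min (ld p z) (ld (P090.flip i p) z) := by omega
  have : (1 : ℝ) ≤ ((min (ld p z) (ld (P090.flip i p) z) : ℕ) : ℝ) / cR n := by
    rw [one_le_div (cRr_pos n)]; exact_mod_cast hm
  exact max_eq_left (by linarith)

/-- Two edges over the same base vertex are far apart. -/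
theorem centre_unique {i i' : Fin (cΔ n)} {p p' z z' : Lab n} (hb : base p = base p')
    (hp : IsEdge i p) (hp' : IsEdge i' p') (h : bump i p z ≠ 0) (h' : bump i' p' z' ≠ 0)
    (hz : ld z z' ≤ 1) : p = p' := by
  have h1 := ld_le_of_bump hp h
  have h2 := ld_le_of_bump hp' h'
  have h3 := ld_triangle p z z'
  have h4 := ld_triangle p z' p'
  have h5 := ld_comm p' z'
  have hg := two_R_lt n
  have hlt : ld p p' < cg n := by omega
  obtain ⟨w, hc, hl, hw⟩ := (labMoves n).exists_walk_of_cd_lt hlt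
  have hl' : w.length ≤ cg n := hl.trans ((labMoves n).cd_le_cap _ _ _)
  have hwb := ((PB n).walk_iff _ _ _).1 ((labMoves n).walk_map (PB n).moves base base_map w p p' hw)
  rw [hb, mul_eq_left] at hwb
  have hw0 := (PB n).inj w hc hl' hwb
  subst hw0
  exact hw

/-- A combination of bumps over one base vertex. -/
theorem combo_bump {h : GB n} (S : Finset (Lab n)) (ι : Lab n → Fin (cΔ n))
    (hS : ∀ p ∈ S, base p = h ∧ IsEdge (ι p) p) (c : Lab n → ℝ) (hc : ∀ p, |c p| ≤ 1) :
    (∀ z, |∑ p ∈ S, c p * bump (ι p) p z| ≤ 1) ∧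
    ∀ z z', ld z z' ≤ 1 →
      |∑ p ∈ S, c p * bump (ι p) p z - ∑ p ∈ S, c p * bump (ι p) p z'| ≤ 1 / cR n := by
  constructor
  · intro z
    by_cases h0 : ∃ p ∈ S, bump (ι p) p z ≠ 0
    · obtain ⟨p, hp, hne⟩ := h0
      rw [Finset.sum_eq_single_of_mem p hp (fun p' hp' hne' => by
        by_contra hz
        exact hne' (centre_unique ((hS p' hp').1.trans (hS p hp).1.symm) (hS p' hp').2 (hS p hp).2
          (fun e => hz (by rw [e, mul_zero])) hne ((ld_self z).trans_le (Nat.zero_le 1))))]
      rw [abs_mul, abs_of_nonneg (bump_nonneg _ _ _)]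
      exact mul_le_one₀ (hc p) (bump_nonneg _ _ _) (bump_le_one _ _ _)
    · push Not at h0
      rw [Finset.sum_eq_zero (fun p hp => by rw [h0 p hp, mul_zero]), abs_zero]
      exact zero_le_one
  · intro z z' hz
    rw [← Finset.sum_sub_distrib]
    by_cases h0 : ∃ p ∈ S, bump (ι p) p z ≠ 0 ∨ bump (ι p) p z' ≠ 0
    · obtain ⟨p, hp, hne⟩ := h0
      rw [Finset.sum_eq_single_of_mem p hp (fun p' hp' hne' => by
        have hb := (hS p' hp').1.trans (hS p hp).1.symm
        have key : ∀ y y', ld y y' ≤ 1 → bump (ι p) p y' ≠ 0 → bump (ι p') p' y = 0 := by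
          intro y y' hy hy'
          by_contra hc'
          exact hne' (centre_unique hb (hS p' hp').2 (hS p hp).2 hc' hy' hy)
        have hz0 : ∀ y : Lab n, ld y y ≤ 1 := fun y => (ld_self y).trans_le (Nat.zero_le 1)
        have hz' : ld z' z ≤ 1 := (ld_comm z' z).trans_le hz
        rcases hne with hne | hne
        · rw [key z z (hz0 z) hne, key z' z hz' hne]; simp
        · rw [key z z' hz hne, key z' z' (hz0 z') hne]; simp)]
      rw [← mul_sub, abs_mul]
      calc |c p| * |bump (ι p) p z - bump (ι p) p z'|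
          ≤ 1 * (1 / cR n) := mul_le_mul (hc p) (bump_lip _ _ hz) (abs_nonneg _) zero_le_one
        _ = 1 / cR n := one_mul _
    · push Not at h0
      rw [Finset.sum_eq_zero (fun p hp => by rw [(h0 p hp).1, (h0 p hp).2]; simp), abs_zero]
      positivity

end Vale.Agent.P090
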