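import Vale.Agent.P090.Moves
import Mathlib.GroupTheory.Perm.Basic
import Mathlib.Data.List.Chain
import Mathlib.Data.Set.Finite.List
import Mathlib.Algebra.BigOperators.Group.List.Basic
import Mathlib.Data.Fintype.Perm

/-!
Finite groups generated by involutions without short relations.
-/

namespace Vale.Agent.P090

variable (Δ g : ℕ)

/-- Reduced words of length at most `g`. -/
def RWord : Type := {l : List (Fin Δ) // l.IsChain (· ≠ ·) ∧ l.length ≤ g}

instance : DecidableEq (RWord Δ g) := fun a b => decidable_of_iff (a.1 = b.1) Subtype.ext_iff.symm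

noncomputable instance : Fintype (RWord Δ g) :=
  Set.Finite.fintype
    ((List.finite_length_le (Fin Δ) g).subset (s := {l : List (Fin Δ) | l.length ≤ g})
      (t := {l : List (Fin Δ) | l.IsChain (· ≠ ·) ∧ l.length ≤ g}) (fun _ h => h.2))

variable {Δ g}

/-- Toggle the first letter `i`. -/
def tog (i : Fin Δ) : List (Fin Δ) → List (Fin Δ)
  | [] => if 0 < g then [i] else []
  | a :: m => if a = i then m else if (a :: m).length < g then i :: a :: m else a :: m

theorem tog_mem (i : Fin Δ) (l : RWord Δ g) :
    (tog (g := g) i l.1).IsChain (· ≠ ·) ∧ (tog (g := g) i l.1).length ≤ g := by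
  obtain ⟨l, hc, hl⟩ := l
  cases l with
  | nil =>
    by_cases h : 0 < g
    · have h' : 1 ≤ g := h
      simp [tog, h, h']
    · simp [tog, h]
  | cons a m =>
    by_cases ha : a = i
    · simp only [List.length_cons] at hl
      simp only [tog, if_pos ha]
      exact ⟨hc.tail, by omega⟩
    · by_cases h : (a :: m).length < g
      · simp only [tog, if_neg ha, if_pos h]
        exact ⟨List.isChain_cons_cons.2 ⟨Ne.symm ha, hc⟩, h⟩
      · simp only [tog, if_neg ha, if_neg h]
        exact ⟨hc, hl⟩

theorem tog_tog (i : Fin Δ) (l : RWord Δ g) :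
    tog (g := g) i (tog (g := g) i l.1) = l.1 := by
  obtain ⟨l, hc, hl⟩ := l
  cases l with
  | nil =>
    by_cases h : 0 < g
    · simp [tog, h]
    · simp [tog, h]
  | cons a m =>
    by_cases ha : a = i
    · subst ha
      simp only [tog, if_pos]
      cases m with
      | nil =>
        have : 0 < g := by simp at hl; omega
        simp [tog, this]
      | cons b u =>
        have hb : b ≠ a := (List.isChain_cons_cons.1 hc).1.symm
        have : (b :: u).length < g := by simp only [List.length_cons] at hl ⊢; omega
        simp only [tog, if_neg hb, if_pos this]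
    · by_cases h : (a :: m).length < g
      · simp only [tog, if_neg ha, if_pos h, if_pos]
      · simp only [tog, if_neg ha, if_neg h]

/-- The generator `i`. -/
def gen (i : Fin Δ) : Equiv.Perm (RWord Δ g) where
  toFun l := ⟨tog (g := g) i l.1, tog_mem i l⟩
  invFun l := ⟨tog (g := g) i l.1, tog_mem i l⟩
  left_inv l := Subtype.ext (tog_tog i l)
  right_inv l := Subtype.ext (tog_tog i l)

theorem gen_mul_self (i : Fin Δ) : gen (g := g) i * gen i = 1 := by
  ext1 l
  exact Subtype.ext (tog_tog i l)

theorem prod_gen_nil : ∀ (w : List (Fin Δ)), w.IsChain (· ≠ ·) → w.length ≤ g →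
    (((w.map (gen (g := g))).prod) ⟨[], List.isChain_nil, Nat.zero_le g⟩).1 = w
  | [], _, _ => rfl
  | a :: w, hc, hl => by
    have ih := prod_gen_nil w hc.tail (by simp only [List.length_cons] at hl; omega)
    rw [List.map_cons, List.prod_cons]
    change tog (g := g) a _ = _
    rw [ih]
    cases w with
    | nil =>
      have : 0 < g := by simp at hl; omega
      simp [tog, this]
    | cons b u =>
      have hb : b ≠ a := (List.isChain_cons_cons.1 hc).1.symm
      have : (b :: u).length < g := by simp only [List.length_cons] at hl ⊢; omega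
      simp only [tog, if_neg hb, if_pos this]

/-- A group with `Δ` involutive generators and no relation of length at most `g`. -/
structure GirthGroup (Δ g : ℕ) (G : Type) [Group G] where
  s : Fin Δ → G
  mul_self : ∀ i, s i * s i = 1
  inj : ∀ w : List (Fin Δ), w.IsChain (· ≠ ·) → w.length ≤ g → (w.map s).prod = 1 → w = []

/-- The concrete group. -/
abbrev GG (Δ g : ℕ) : Type := Equiv.Perm (RWord Δ g)

/-- The concrete generators. -/
def girthGroup (Δ g : ℕ) : GirthGroup Δ g (GG Δ g) where
  s := gen
  mul_self := gen_mul_self
  inj w hc hl h := by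
    have := prod_gen_nil (g := g) w hc hl
    rw [h] at this
    exact this.symm

/-- Pairing with a second family of generators keeps short words non-trivial. -/
def GirthGroup.pairLeft {Δ g g' : ℕ} {G G' : Type} [Group G] [Group G']
    (P : GirthGroup Δ g G) (P' : GirthGroup Δ g' G') : GirthGroup Δ g' (G × G') where
  s i := (P.s i, P'.s i)
  mul_self i := by ext <;> simp [P.mul_self, P'.mul_self]
  inj w hc hl h := by
    apply P'.inj w hc hl
    have := congrArg (MonoidHom.snd G G') h
    rw [map_list_prod, List.map_map, map_one] at this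
    exact this

namespace GirthGroup

variable {G : Type} [Group G] (P : GirthGroup Δ g G)

/-- The Cayley moves. -/
def moves : Moves (Fin Δ) G where
  step i h := some (h * P.s i)
  symm i p q h := by
    simp only [Option.some.injEq] at h ⊢
    rw [← h, mul_assoc, P.mul_self, mul_one]

theorem walk_iff : ∀ (w : List (Fin Δ)) (p q : G),
    P.moves.Walk w p q ↔ p * (w.map P.s).prod = q
  | [], p, q => by simp [Moves.Walk]
  | i :: w, p, q => by
      have h1 : ∀ p', P.moves.step i p = some p' ↔ p' = p * P.s i := fun p' => by
        simp only [moves, Option.some.injEq, eq_comm]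
      simp only [Moves.Walk, h1, walk_iff w, exists_eq_left, List.map_cons, List.prod_cons,
        mul_assoc]

theorem prod_reverse (w : List (Fin Δ)) :
    (w.reverse.map P.s).prod = ((w.map P.s).prod)⁻¹ := by
  induction w with
  | nil => simp
  | cons i w ih =>
    have hi : (P.s i)⁻¹ = P.s i := inv_eq_of_mul_eq_one_right (P.mul_self i)
    rw [List.reverse_cons, List.map_append, List.prod_append, ih]
    simp [hi]

theorem unique : ∀ (w₁ w₂ : List (Fin Δ)), w₁.IsChain (· ≠ ·) → w₂.IsChain (· ≠ ·) →
    w₁.length + w₂.length ≤ g → (w₁.map P.s).prod = (w₂.map P.s).prod → w₁ = w₂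
  | [], w₂, _, h₂, hl, he => by
      have := P.inj w₂ h₂ (by simpa using hl) (by simpa using he.symm)
      rw [this]
  | a :: u, [], h₁, _, hl, he => P.inj _ h₁ (by simpa using hl) (by simpa using he)
  | a :: u, b :: v, h₁, h₂, hl, he => by
      by_cases hab : a = b
      · subst hab
        rw [unique u v h₁.tail h₂.tail (by simp only [List.length_cons] at hl; omega)
          (by simpa using he)]
      · exfalso
        have hch : ((a :: u).reverse ++ (b :: v)).IsChain (· ≠ ·) := by
          refine List.isChain_append.2 ⟨?_, h₂, ?_⟩
          · rw [List.isChain_reverse]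
            exact h₁.imp (fun x y h => Ne.symm h)
          · intro x hx y hy
            simp only [List.getLast?_reverse, List.head?_cons, Option.mem_def,
              Option.some.injEq] at hx hy
            subst hx; subst hy; exact hab
        have := P.inj _ hch (by
          simp only [List.length_append, List.length_reverse, List.length_cons] at hl ⊢
          omega)
          (by rw [List.map_append, List.prod_append, P.prod_reverse, he, inv_mul_cancel])
        simp at this

/-- Unique short reduced paths. -/
theorem walk_unique {h u : G} {w₁ w₂ : List (Fin Δ)} (c₁ : w₁.IsChain (· ≠ ·))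
    (c₂ : w₂.IsChain (· ≠ ·)) (hl : w₁.length + w₂.length ≤ g) (e₁ : P.moves.Walk w₁ h u)
    (e₂ : P.moves.Walk w₂ h u) : w₁ = w₂ :=
  P.unique w₁ w₂ c₁ c₂ hl
    (mul_left_cancel (((P.walk_iff _ _ _).1 e₁).trans ((P.walk_iff _ _ _).1 e₂).symm))

theorem mul_s_ne (hg : 1 ≤ g) (h : G) (i : Fin Δ) : h * P.s i ≠ h := by
  intro e
  have := P.inj [i] (List.isChain_singleton i) hg (by simpa using e)
  simp at this

end GirthGroup

end Vale.Agent.P090
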