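import Mathlib.Data.List.Chain
import Mathlib.Data.Real.Basic
import Mathlib.Data.Nat.Lattice
import Mathlib.Tactic.Ring
import Mathlib.Algebra.Order.Group.Unbundled.Abs
import Mathlib.Algebra.Order.BigOperators.Group.List
import Mathlib.Data.Fintype.Basic

/-!
Graphs given by partially defined involutive moves, words, and truncated distances.
-/

namespace Vale.Agent.P090

/-- A system of partial moves, one for each colour, each symmetric. -/
structure Moves (ι V : Type) where
  step : ι → V → Option V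
  symm : ∀ i p q, step i p = some q → step i q = some p

namespace Moves

variable {ι V : Type} (S : Moves ι V)

/-- `Walk w p q`: the word `w` leads from `p` to `q`. -/
def Walk : List ι → V → V → Prop
  | [], p, q => p = q
  | i :: w, p, q => ∃ p', S.step i p = some p' ∧ Walk w p' q

theorem walk_append : ∀ (w₁ w₂ : List ι) (p q : V),
    S.Walk (w₁ ++ w₂) p q ↔ ∃ r, S.Walk w₁ p r ∧ S.Walk w₂ r q
  | [], w₂, p, q => by simp [Walk]
  | i :: w₁, w₂, p, q => by
      simp only [List.cons_append, Walk, walk_append w₁ w₂]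
      constructor
      · rintro ⟨p', h, r, h₁, h₂⟩; exact ⟨r, ⟨p', h, h₁⟩, h₂⟩
      · rintro ⟨r, ⟨p', h, h₁⟩, h₂⟩; exact ⟨p', h, r, h₁, h₂⟩

theorem walk_reverse : ∀ (w : List ι) (p q : V), S.Walk w p q → S.Walk w.reverse q p
  | [], p, q, h => by simp only [Walk] at h; simp [Walk, h]
  | i :: w, p, q, ⟨p', h, h'⟩ => by
      rw [List.reverse_cons, walk_append]
      exact ⟨p', walk_reverse w p' q h', p, S.symm i p p' h, rfl⟩

/-- A walk can be shortened to one without immediate backtracking. -/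
theorem walk_reduce : ∀ (w : List ι) (p q : V), S.Walk w p q →
    ∃ w', w'.IsChain (· ≠ ·) ∧ w'.length ≤ w.length ∧ S.Walk w' p q
  | [], p, q, h => ⟨[], List.isChain_nil, le_rfl, h⟩
  | i :: w, p, q, ⟨p', h, h'⟩ => by
      obtain ⟨w', hc, hl, hw⟩ := walk_reduce w p' q h'
      cases w' with
      | nil => exact ⟨[i], List.isChain_singleton i, by simp, p', h, hw⟩
      | cons j u =>
        by_cases hij : i = j
        · subst hij
          obtain ⟨p'', h₂, hu⟩ := hw
          have := (S.symm i p p' h).symm.trans h₂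
          cases this
          refine ⟨u, hc.tail, ?_, hu⟩
          simp only [List.length_cons] at hl ⊢
          omega
        · exact ⟨i :: j :: u, List.isChain_cons_cons.2 ⟨hij, hc⟩,
            by simp only [List.length_cons] at hl ⊢; omega, p', h, hw⟩

/-- The distance truncated at `D`. -/
noncomputable def cd (D : ℕ) (p q : V) : ℕ :=
  sInf {n : ℕ | D ≤ n ∨ ∃ w, w.length = n ∧ S.Walk w p q}

theorem cd_le_cap (D : ℕ) (p q : V) : S.cd D p q ≤ D :=
  Nat.sInf_le (Or.inl le_rfl)

theorem cd_le_of_walk (D : ℕ) {p q : V} {w : List ι} (h : S.Walk w p q) :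
    S.cd D p q ≤ w.length :=
  Nat.sInf_le (Or.inr ⟨w, rfl, h⟩)

theorem cd_cases (D : ℕ) (p q : V) :
    D ≤ S.cd D p q ∨ ∃ w, w.length = S.cd D p q ∧ S.Walk w p q :=
  Nat.sInf_mem (s := {n : ℕ | D ≤ n ∨ ∃ w : List ι, w.length = n ∧ S.Walk w p q})
    ⟨D, Or.inl le_rfl⟩

theorem exists_walk_of_cd_lt {D : ℕ} {p q : V} (h : S.cd D p q < D) :
    ∃ w, w.IsChain (· ≠ ·) ∧ w.length ≤ S.cd D p q ∧ S.Walk w p q := by
  rcases S.cd_cases D p q with h' | ⟨w, hw, hwalk⟩
  · omega
  · obtain ⟨w', h₁, h₂, h₃⟩ := S.walk_reduce w p q hwalk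
    exact ⟨w', h₁, hw ▸ h₂, h₃⟩

theorem cd_self (D : ℕ) (p : V) : S.cd D p p = 0 :=
  Nat.le_zero.1 (S.cd_le_of_walk D (w := []) rfl)

theorem cd_comm (D : ℕ) (p q : V) : S.cd D p q = S.cd D q p := by
  suffices h : ∀ p q, S.cd D p q ≤ S.cd D q p from le_antisymm (h p q) (h q p)
  intro p q
  rcases S.cd_cases D q p with h | ⟨w, hw, hwalk⟩
  · exact (S.cd_le_cap D p q).trans h
  · exact (S.cd_le_of_walk D (S.walk_reverse w q p hwalk)).trans (by simp [hw])

theorem cd_triangle (D : ℕ) (p q r : V) : S.cd D p r ≤ S.cd D p q + S.cd D q r := by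
  rcases S.cd_cases D p q with h | ⟨w, hw, h₁⟩
  · exact (S.cd_le_cap D p r).trans (h.trans (Nat.le_add_right _ _))
  · rcases S.cd_cases D q r with h | ⟨u, hu, h₂⟩
    · exact (S.cd_le_cap D p r).trans (h.trans (Nat.le_add_left _ _))
    · refine (S.cd_le_of_walk D ((S.walk_append w u p r).2 ⟨q, h₁, h₂⟩)).trans ?_
      simp [hw, hu]

theorem eq_of_cd_eq_zero {D : ℕ} (hD : 0 < D) {p q : V} (h : S.cd D p q = 0) : p = q := by
  obtain ⟨w, -, hl, hw⟩ := S.exists_walk_of_cd_lt (h ▸ hD)
  rw [h, Nat.le_zero, List.length_eq_zero_iff] at hl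
  subst hl
  exact hw

theorem cd_step {D : ℕ} {i : ι} {p q : V} (h : S.step i p = some q) : S.cd D p q ≤ 1 :=
  S.cd_le_of_walk D (w := [i]) ⟨q, h, rfl⟩

/-- A function changing by at most `L` along each move changes by at most `L` times the length
along a walk. -/
theorem abs_sub_le_of_walk (f : V → ℝ) (L : ℝ)
    (h : ∀ i p q, S.step i p = some q → |f p - f q| ≤ L) :
    ∀ (w : List ι) (p q : V), S.Walk w p q → |f p - f q| ≤ L * w.length
  | [], p, q, hw => by simp only [Walk] at hw; simp [hw]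
  | i :: w, p, q, ⟨p', h₁, h₂⟩ => by
      have e : (((i :: w).length : ℕ) : ℝ) = w.length + 1 := by simp
      rw [e]
      calc |f p - f q| ≤ |f p - f p'| + |f p' - f q| := abs_sub_le _ _ _
        _ ≤ L + L * w.length := add_le_add (h i p p' h₁) (abs_sub_le_of_walk f L h w p' q h₂)
        _ = L * (w.length + 1) := by ring

/-- A morphism of move systems. -/
theorem walk_map {V' : Type} (S' : Moves ι V') (b : V → V')
    (h : ∀ i p q, S.step i p = some q → S'.step i (b p) = some (b q)) :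
    ∀ (w : List ι) (p q : V), S.Walk w p q → S'.Walk w (b p) (b q)
  | [], p, q, hw => by simp only [Walk] at hw; simp [Walk, hw]
  | i :: w, p, q, ⟨p', h₁, h₂⟩ => ⟨b p', h i p p' h₁, walk_map S' b h w p' q h₂⟩

theorem cd_map {V' : Type} (S' : Moves ι V') (b : V → V')
    (h : ∀ i p q, S.step i p = some q → S'.step i (b p) = some (b q)) (D : ℕ) (p q : V) :
    S'.cd D (b p) (b q) ≤ S.cd D p q := by
  rcases S.cd_cases D p q with h' | ⟨w, hw, hwalk⟩
  · exact (S'.cd_le_cap D _ _).trans h'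
  · exact hw ▸ S'.cd_le_of_walk D (S.walk_map S' b h w p q hwalk)

end Moves

end Vale.Agent.P090
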