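import Vale.Agent.P090.Core

/-!
Peeling of the product of a random level graph with the finitely many old levels, and the
contradiction.
-/

namespace Vale.Agent.P090

open Finset

variable {n J : ℕ}

/-- The label of level `J` given by a configuration and a vertex. -/
def lab (ω : Cfg n J) (x : GL n J) : Lab n := ⟨J, ω, x⟩

/-- The product state can move along colour `i`. -/
def Out (ω : Cfg n J) (i : Fin (cΔ n)) (v : GL n J × Lab n) : Prop :=
  Kept ω v.1 i ∧ IsEdge i v.2

/-- The move in the product. -/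
def nx (i : Fin (cΔ n)) (v : GL n J × Lab n) : GL n J × Lab n :=
  (v.1 * (PL n J).s i, flip i v.2)

theorem nx_nx (i : Fin (cΔ n)) (v : GL n J × Lab n) : nx i (nx i v) = v := by
  obtain ⟨x, p⟩ := v
  simp only [nx, flip_flip, mul_s_s]

theorem out_nx {ω : Cfg n J} {i : Fin (cΔ n)} {v : GL n J × Lab n} (h : Out ω i v) :
    Out ω i (nx i v) := ⟨h.1.symm, h.2.flip⟩

/-- Iterated peeling. -/
def Dlev (ω : Cfg n J) : ℕ → GL n J × Lab n → Prop
  | 0, _ => True
  | k + 1, v => ∃ i i', i ≠ i' ∧ Out ω i v ∧ Out ω i' v ∧ Dlev ω k (nx i v) ∧ Dlev ω k (nx i' v)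

theorem dlev_anti (ω : Cfg n J) : ∀ (k : ℕ) (v : GL n J × Lab n),
    Dlev ω (k + 1) v → Dlev ω k v
  | 0, _, _ => trivial
  | k + 1, v, ⟨i, i', hne, h₁, h₂, h₃, h₄⟩ =>
      ⟨i, i', hne, h₁, h₂, dlev_anti ω k _ h₃, dlev_anti ω k _ h₄⟩

theorem dlev_le (ω : Cfg n J) {k l : ℕ} (hkl : k ≤ l) (v : GL n J × Lab n) (h : Dlev ω l v) :
    Dlev ω k v := by
  induction hkl with
  | refl => exact h
  | step _ ih => exact ih (dlev_anti ω _ v h)

open Classical in
/-- The peeling rank. -/
noncomputable def rk (ω : Cfg n J) (j : ℕ) (v : GL n J × Lab n) : ℕ :=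
  Nat.findGreatest (fun k => Dlev ω k v) j

theorem dlev_rk (ω : Cfg n J) (j : ℕ) (v : GL n J × Lab n) : Dlev ω (rk ω j v) v := by
  classical
  exact Nat.findGreatest_spec (P := fun k => Dlev ω k v) (m := 0) (Nat.zero_le j) trivial

open Classical in
theorem card_up_le_one (ω : Cfg n J) (j : ℕ) (v : GL n J × Lab n) (hv : ¬ Dlev ω j v) :
    (Finset.univ.filter (fun i => Out ω i v ∧ rk ω j v ≤ rk ω j (nx i v))).card ≤ 1 := by
  rw [Finset.card_le_one]
  intro i hi i' hi'
  by_contra hne
  have h1 := (Finset.mem_filter.1 hi).2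
  have h2 := (Finset.mem_filter.1 hi').2
  have hlt : rk ω j v < j := by
    refine lt_of_le_of_ne (Nat.findGreatest_le j) (fun e => hv ?_)
    have := dlev_rk ω j v
    rwa [e] at this
  exact Nat.findGreatest_is_greatest (P := fun k => Dlev ω k v) (Nat.lt_succ_self _) hlt
    ⟨i, i', hne, h1.1, h2.1, dlev_le ω h1.2 _ (dlev_rk ω j _),
      dlev_le ω h2.2 _ (dlev_rk ω j _)⟩

/-- A walk available in both factors. -/
def PW (ω : Cfg n J) : List (Fin (cΔ n)) → GL n J × Lab n → Prop
  | [], _ => True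
  | i :: w, v => Out ω i v ∧ PW ω w (nx i v)

theorem exists_pw (ω : Cfg n J) : ∀ (k : ℕ) (v : GL n J × Lab n), Dlev ω k v →
    ∀ avoid : Option (Fin (cΔ n)), ∃ w : List (Fin (cΔ n)), w.IsChain (· ≠ ·) ∧ w.length = k ∧
      (∀ c, w.head? = some c → some c ≠ avoid) ∧ PW ω w v
  | 0, _, _, _ => ⟨[], List.isChain_nil, rfl, by simp, trivial⟩
  | k + 1, v, ⟨i, i', hne, h₁, h₂, h₃, h₄⟩, avoid => by
      obtain ⟨c, hc, ho, hd⟩ : ∃ c, some c ≠ avoid ∧ Out ω c v ∧ Dlev ω k (nx c v) := by
        by_cases hi : some i = avoid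
        · exact ⟨i', fun e => hne (Option.some.inj (hi.trans e.symm)), h₂, h₄⟩
        · exact ⟨i, hi, h₁, h₃⟩
      obtain ⟨w, hw, hl, hh, hp⟩ := exists_pw ω k _ hd (some c)
      refine ⟨c :: w, ?_, by simp [hl], ?_, ho, hp⟩
      · cases w with
        | nil => exact List.isChain_singleton c
        | cons b u =>
          exact List.isChain_cons_cons.2 ⟨fun e => hh b rfl (congrArg some e.symm), hw⟩
      · intro d hd'
        simp only [List.head?_cons, Option.some.injEq] at hd'
        exact hd' ▸ hc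

open Classical in
/-- Retained colours at a label. -/
noncomputable def edgesAt (p : Lab n) : Finset (Fin (cΔ n)) :=
  Finset.univ.filter (fun i => IsEdge i p)

theorem card_kept_at (ω : Cfg n J) (x : GL n J) :
    ∀ S : Finset (Fin (cΔ n)), (∀ i ∈ S, Kept ω x i) → S.card ≤ ct n := by
  classical
  intro S hS
  rcases S.eq_empty_or_nonempty with rfl | ⟨i, hi⟩
  · simp
  · refine le_trans (Finset.card_le_card ?_) (hS i hi).2.1
    intro k hk
    exact Finset.mem_filter.2 ⟨Finset.mem_univ _, (hS k hk).1⟩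

theorem card_edgesAt (p : Lab n) : (edgesAt p).card ≤ ct n := by
  classical
  exact card_kept_at p.2.1 p.2.2 _ (fun i hi => (Finset.mem_filter.1 hi).2)

open Classical in
/-- Walks of a given length starting at a label. -/
noncomputable def words : ℕ → Lab n → Finset (List (Fin (cΔ n)))
  | 0, _ => {[]}
  | k + 1, p => (edgesAt p).biUnion (fun i => (words k (flip i p)).image (List.cons i))

theorem card_words : ∀ (k : ℕ) (p : Lab n), (words k p).card ≤ ct n ^ k
  | 0, p => by simp [words]
  | k + 1, p => by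
      classical
      refine le_trans (Finset.card_biUnion_le_card_mul _ _ (ct n ^ k)
        (fun i _ => Finset.card_image_le.trans (card_words k _))) ?_
      rw [pow_succ, mul_comm (ct n ^ k)]
      exact Nat.mul_le_mul_right _ (card_edgesAt p)

theorem pw_mem (ω : Cfg n J) : ∀ (w : List (Fin (cΔ n))) (x : GL n J) (p : Lab n),
    PW ω w (x, p) → w ∈ words w.length p ∧ ZeroWalk ω w x
  | [], _, _, _ => ⟨by simp [words], trivial⟩
  | i :: w, x, p, ⟨⟨hk, he⟩, hw⟩ => by
      classical
      obtain ⟨h1, h2⟩ := pw_mem ω w _ _ hw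
      exact ⟨Finset.mem_biUnion.2 ⟨i, Finset.mem_filter.2 ⟨Finset.mem_univ _, he⟩,
        Finset.mem_image.2 ⟨w, h1, rfl⟩⟩, hk.1, h2⟩

open Classical in
/-- Vertices from which peeling has not finished after `j` rounds. -/
noncomputable def badSet (m j : ℕ) (ω : Cfg n J) : Finset (GL n J) :=
  Finset.univ.filter (fun x => ∃ p ∈ LabsBelow n m, Dlev ω j (x, p))

theorem card_bad (m j : ℕ) (hj : j ≤ J) :
    2 ^ j * ∑ ω : Cfg n J, (badSet m j ω).card
      ≤ Fintype.card (GL n J) * ((LabsBelow n m).card * nCfg n J) := by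
  classical
  rw [show ∑ ω : Cfg n J, (badSet m j ω).card
      = ∑ x : GL n J, (Finset.univ.filter
          (fun ω : Cfg n J => ∃ p ∈ LabsBelow n m, Dlev ω j (x, p))).card by
    simp only [badSet, Finset.card_filter]
    exact Finset.sum_comm]
  rw [Finset.mul_sum, ← Finset.card_univ (α := GL n J), ← smul_eq_mul (Finset.univ.card)]
  refine Finset.sum_le_card_nsmul _ _ _ (fun x _ => ?_)
  set T : Lab n → List (Fin (cΔ n)) → Finset (Cfg n J) := fun p w =>
    Finset.univ.filter (fun ω => w.IsChain (· ≠ ·) ∧ w.length = j ∧ ZeroWalk ω w x)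
  have hsub : Finset.univ.filter (fun ω : Cfg n J => ∃ p ∈ LabsBelow n m, Dlev ω j (x, p)) ⊆
      (LabsBelow n m).biUnion (fun p => (words j p).biUnion (T p)) := by
    intro ω hω
    obtain ⟨p, hp, hd⟩ := (Finset.mem_filter.1 hω).2
    obtain ⟨w, hc, hl, -, hw⟩ := exists_pw ω j _ hd none
    obtain ⟨h1, h2⟩ := pw_mem ω w x p hw
    exact Finset.mem_biUnion.2 ⟨p, hp, Finset.mem_biUnion.2 ⟨w, hl ▸ h1,
      Finset.mem_filter.2 ⟨Finset.mem_univ _, hc, hl, h2⟩⟩⟩
  have hT : ∀ p w, cq n ^ (2 * j) * (T p w).card ≤ nCfg n J := by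
    intro p w
    by_cases hw : w.IsChain (· ≠ ·) ∧ w.length = j
    · have := card_zeroWalk (n := n) w x hw.1 (hw.2.trans_le hj)
      rw [hw.2, mul_comm] at this
      refine le_trans (Nat.mul_le_mul_left _ (Finset.card_le_card ?_)) this
      intro ω hω
      exact Finset.mem_filter.2 ⟨Finset.mem_univ _, (Finset.mem_filter.1 hω).2.2.2⟩
    · have : T p w = ∅ := Finset.filter_eq_empty_iff.2 (fun ω _ h => hw ⟨h.1, h.2.1⟩)
      simp [this]
  have hsum : cq n ^ (2 * j) * (Finset.univ.filter
      (fun ω : Cfg n J => ∃ p ∈ LabsBelow n m, Dlev ω j (x, p))).card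
      ≤ (LabsBelow n m).card * (ct n ^ j * nCfg n J) := by
    refine (Nat.mul_le_mul_left _ ((Finset.card_le_card hsub).trans Finset.card_biUnion_le)).trans ?_
    rw [Finset.mul_sum, ← smul_eq_mul (LabsBelow n m).card]
    refine Finset.sum_le_card_nsmul _ _ _ (fun p _ => ?_)
    refine (Nat.mul_le_mul_left _ Finset.card_biUnion_le).trans ?_
    rw [Finset.mul_sum]
    refine (Finset.sum_le_card_nsmul _ _ _ (fun w _ => hT p w)).trans ?_
    rw [smul_eq_mul]
    exact Nat.mul_le_mul_right _ (card_words j p)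
  have hqt : 2 ^ j * ct n ^ j ≤ cq n ^ (2 * j) := by
    rw [← mul_pow, pow_mul, ← cq.eq_1]
    exact Nat.pow_le_pow_left (Nat.le_self_pow (by norm_num) _) j
  have htpos : 0 < ct n ^ j := pow_pos (ct_pos n) j
  refine Nat.le_of_mul_le_mul_left ?_ htpos
  calc ct n ^ j * (2 ^ j * (Finset.univ.filter
        (fun ω : Cfg n J => ∃ p ∈ LabsBelow n m, Dlev ω j (x, p))).card)
      = (2 ^ j * ct n ^ j) * (Finset.univ.filter
        (fun ω : Cfg n J => ∃ p ∈ LabsBelow n m, Dlev ω j (x, p))).card := by ring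
    _ ≤ _ := Nat.mul_le_mul_right _ hqt
    _ ≤ (LabsBelow n m).card * (ct n ^ j * nCfg n J) := hsum
    _ = ct n ^ j * ((LabsBelow n m).card * nCfg n J) := by ring

theorem kept_total (hJ : 1 ≤ J) :
    (cu n : ℝ) * Fintype.card (GL n J) * nCfg n J ≤
      2 * ∑ ω : Cfg n J, ∑ x : GL n J,
        ((@Finset.filter _ (fun i => Kept ω x i) (Classical.decPred _) Finset.univ).card : ℝ) := by
  classical
  have hnat : cu n * Fintype.card (GL n J) * nCfg n J ≤
      2 * ∑ ω : Cfg n J, ∑ x : GL n J,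
        (Finset.univ.filter (fun i : Fin (cΔ n) => Kept ω x i)).card := by
    have hre : ∑ ω : Cfg n J, ∑ x : GL n J,
        (Finset.univ.filter (fun i : Fin (cΔ n) => Kept ω x i)).card
        = ∑ x : GL n J, ∑ i : Fin (cΔ n),
          (Finset.univ.filter (fun ω : Cfg n J => Kept ω x i)).card := by
      simp only [Finset.card_filter]
      rw [Finset.sum_comm]
      exact Finset.sum_congr rfl (fun x _ => Finset.sum_comm)
    have hq2 : 0 < cq n ^ 2 := pow_pos (cq_pos n) 2
    refine Nat.le_of_mul_le_mul_left ?_ hq2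
    rw [hre]
    simp only [Finset.mul_sum]
    calc cq n ^ 2 * (cu n * Fintype.card (GL n J) * nCfg n J)
        = ∑ x : GL n J, ∑ i : Fin (cΔ n), nCfg n J := by
          simp [Finset.sum_const, cΔ]; ring
      _ ≤ _ := Finset.sum_le_sum (fun x _ => Finset.sum_le_sum (fun i _ => by
          rw [← mul_assoc, mul_comm (cq n ^ 2) 2]; exact card_kept hJ x i))
  refine le_of_le_of_eq (show ((cu n * Fintype.card (GL n J) * nCfg n J : ℕ) : ℝ)
      ≤ ((2 * ∑ ω : Cfg n J, ∑ x : GL n J,
        (Finset.univ.filter (fun i : Fin (cΔ n) => Kept ω x i)).card : ℕ) : ℝ) by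
      exact_mod_cast hnat) ?_ |> le_trans (le_of_eq (by push_cast; ring))
  push_cast
  congr! 5

namespace Approx

variable {m : ℕ} (A : Approx n m)

/-- Weight of a product state. -/
noncomputable def wt (ω : Cfg n J) (v : GL n J × Lab n) : ℝ := A.w (lab ω v.1) v.2

open Classical in
/-- Product states below level `m`. -/
noncomputable def states (n J m : ℕ) : Finset (GL n J × Lab n) :=
  (Finset.univ ×ˢ LabsBelow n m).filter (fun v => base v.2 = v.1.1)

open Classical in
/-- Product edges. -/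
noncomputable def pedges (m : ℕ) (ω : Cfg n J) : Finset ((GL n J × Lab n) × Fin (cΔ n)) :=
  ((states n J m) ×ˢ Finset.univ).filter (fun e => Out ω e.2 e.1)

/-- Reversal of a product edge. -/
def rev (e : (GL n J × Lab n) × Fin (cΔ n)) : (GL n J × Lab n) × Fin (cΔ n) := (nx e.2 e.1, e.2)

theorem rev_mem {m : ℕ} {ω : Cfg n J} {e : (GL n J × Lab n) × Fin (cΔ n)}
    (he : e ∈ pedges m ω) : rev e ∈ pedges m ω := by
  classical
  obtain ⟨⟨x, p⟩, i⟩ := e
  simp only [pedges, states, Finset.mem_filter, Finset.mem_product, Finset.mem_univ, true_and,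
    and_true] at he ⊢
  obtain ⟨⟨hp, hb⟩, ho⟩ := he
  refine ⟨⟨?_, ?_⟩, out_nx ho⟩
  · exact mem_labsBelow.2 (mem_labsBelow.1 hp : p.1 < m)
  · show base p * (PB n).s i = x.1 * (PB n).s i
    rw [hb]

theorem sum_states (ω : Cfg n J) :
    ∑ v ∈ states n J m, A.wt ω v ≤ cK n * Fintype.card (GL n J) := by
  classical
  rw [states, Finset.sum_filter, Finset.sum_product, mul_comm, ← nsmul_eq_mul]
  refine le_trans (Finset.sum_le_card_nsmul _ _ (cK n : ℝ) (fun x _ => ?_)) (le_of_eq (by simp))
  have := A.sum_w (lab ω x)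
  rw [fibre, Finset.sum_filter] at this
  exact this

theorem peel (j : ℕ) (ω : Cfg n J) :
    ∑ e ∈ pedges m ω, min (A.wt ω e.1) (A.wt ω (rev e).1)
      ≤ 2 * (cK n * Fintype.card (GL n J)) + ct n * cK n * (badSet m j ω).card := by
  classical
  set up : (GL n J × Lab n) × Fin (cΔ n) → ℝ := fun e =>
    if ¬ Dlev ω j e.1 ∧ rk ω j e.1 ≤ rk ω j (nx e.2 e.1) then A.wt ω e.1 else 0
  set st : (GL n J × Lab n) × Fin (cΔ n) → ℝ := fun e =>
    if Dlev ω j e.1 then A.wt ω e.1 else 0
  have hnn : ∀ v, 0 ≤ A.wt ω v := fun v => A.w_nonneg _ _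
  have hup : ∀ e, 0 ≤ up e := fun e => by
    simp only [up]; split_ifs <;> simp [hnn]
  have hst : ∀ e, 0 ≤ st e := fun e => by
    simp only [st]; split_ifs <;> simp [hnn]
  have hpt : ∀ e : (GL n J × Lab n) × Fin (cΔ n),
      min (A.wt ω e.1) (A.wt ω (rev e).1) ≤ up e + up (rev e) + st e := by
    intro e
    by_cases hd : Dlev ω j e.1
    · have : st e = A.wt ω e.1 := if_pos hd
      have := min_le_left (A.wt ω e.1) (A.wt ω (rev e).1)
      linarith [hup e, hup (rev e)]
    by_cases hr : rk ω j e.1 ≤ rk ω j (nx e.2 e.1)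
    · have : up e = A.wt ω e.1 := if_pos ⟨hd, hr⟩
      have := min_le_left (A.wt ω e.1) (A.wt ω (rev e).1)
      linarith [hst e, hup (rev e)]
    · have hd' : ¬ Dlev ω j (nx e.2 e.1) := by
        intro h
        have h1 : rk ω j (nx e.2 e.1) = j := le_antisymm (Nat.findGreatest_le j)
          (Nat.le_findGreatest (P := fun k => Dlev ω k (nx e.2 e.1)) le_rfl h)
        have h2 : rk ω j e.1 ≤ j := Nat.findGreatest_le j
        omega
      have : up (rev e) = A.wt ω (rev e).1 := by
        simp only [up, rev, nx_nx]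
        exact if_pos ⟨hd', by omega⟩
      have := min_le_right (A.wt ω e.1) (A.wt ω (rev e).1)
      linarith [hst e, hup e]
  have hrev : ∑ e ∈ pedges m ω, up (rev e) = ∑ e ∈ pedges m ω, up e :=
    Finset.sum_nbij' rev rev (fun e he => rev_mem he) (fun e he => rev_mem he)
      (fun e _ => Prod.ext (nx_nx _ _) rfl) (fun e _ => Prod.ext (nx_nx _ _) rfl) (fun e _ => rfl)
  have hU : ∑ e ∈ pedges m ω, up e ≤ cK n * Fintype.card (GL n J) := by
    refine le_trans ?_ (A.sum_states (J := J) ω)
    rw [pedges, Finset.sum_filter, Finset.sum_product]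
    refine Finset.sum_le_sum (fun v _ => ?_)
    by_cases hd : Dlev ω j v
    · simp [up, hd, hnn]
    · have heq : ∀ i : Fin (cΔ n), (if Out ω i v then up (v, i) else 0)
          = if Out ω i v ∧ rk ω j v ≤ rk ω j (nx i v) then A.wt ω v else 0 := by
        intro i; by_cases ho : Out ω i v <;> simp [up, hd, ho]
      simp only [heq]
      rw [← Finset.sum_filter, Finset.sum_const, nsmul_eq_mul]
      refine mul_le_of_le_one_left (hnn v) ?_
      exact_mod_cast card_up_le_one ω j v hd
  have hS : ∑ e ∈ pedges m ω, st e ≤ ct n * cK n * (badSet m j ω).card := by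
    rw [pedges, Finset.sum_filter, Finset.sum_product, states, Finset.sum_filter,
      Finset.sum_product]
    have hx : ∀ x : GL n J, (∑ p ∈ LabsBelow n m, if base p = x.1 then
        ∑ i : Fin (cΔ n), (if Out ω i (x, p) then st ((x, p), i) else 0) else 0)
        ≤ if x ∈ badSet m j ω then (ct n : ℝ) * cK n else 0 := by
      intro x
      by_cases hb : x ∈ badSet m j ω
      · rw [if_pos hb]
        have h1 := A.sum_w (lab ω x)
        rw [fibre, Finset.sum_filter] at h1
        refine le_trans (Finset.sum_le_sum (g := fun p => (ct n : ℝ) *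
          if base p = (lab ω x).2.2.1 then A.w (lab ω x) p else 0) (fun p _ => ?_)) ?_
        · show (if base p = x.1 then _ else 0) ≤ (ct n : ℝ) * if base p = x.1 then _ else 0
          by_cases hp : base p = x.1
          · rw [if_pos hp, if_pos hp, ← Finset.sum_filter]
            refine le_trans (Finset.sum_le_card_nsmul _ _ (A.w (lab ω x) p) (fun i _ => ?_)) ?_
            · simp only [st]; split_ifs
              · exact le_rfl
              · exact A.w_nonneg _ _
            · rw [nsmul_eq_mul]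
              refine mul_le_mul_of_nonneg_right ?_ (A.w_nonneg _ _)
              norm_cast
              refine card_kept_at ω x _ (fun i hi => ?_)
              have hi' : Out ω i (x, p) := (Finset.mem_filter.1 hi).2
              exact hi'.1
          · rw [if_neg hp, if_neg hp, mul_zero]
        · rw [← Finset.mul_sum]
          exact mul_le_mul_of_nonneg_left h1 (Nat.cast_nonneg _)
      · rw [if_neg hb]
        refine le_of_eq (Finset.sum_eq_zero (fun p hp => ?_))
        have : ¬ Dlev ω j (x, p) := fun h =>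
          hb (Finset.mem_filter.2 ⟨Finset.mem_univ _, p, hp, h⟩)
        simp [st, this]
    refine (Finset.sum_le_sum (fun x _ => hx x)).trans (le_of_eq ?_)
    rw [Finset.sum_ite_mem, Finset.univ_inter, Finset.sum_const, nsmul_eq_mul, mul_comm]
  have := Finset.sum_le_sum (s := pedges m ω) (fun e _ => hpt e)
  rw [Finset.sum_add_distrib, Finset.sum_add_distrib, hrev] at this
  linarith

theorem per_config {m : ℕ} (A : Approx n m) (j : ℕ) (ω : Cfg n J) :
    (1 / 2 : ℝ) * ∑ x : GL n J,
        ((@Finset.filter _ (fun i => Kept ω x i) (Classical.decPred _) Finset.univ).card : ℝ)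
      ≤ 4 * (cK n * Fintype.card (GL n J)) + ct n * cK n * (badSet m j ω).card := by
  classical
  set KE := ((Finset.univ : Finset (GL n J)) ×ˢ (Finset.univ : Finset (Fin (cΔ n)))).filter
    (fun e => Kept ω e.1 e.2)
  set r : GL n J × Fin (cΔ n) → GL n J × Fin (cΔ n) := fun e => (e.1 * (PL n J).s e.2, e.2)
  have hL : (1 / 2 : ℝ) * ∑ x : GL n J,
      ((@Finset.filter _ (fun i => Kept ω x i) (Classical.decPred _) Finset.univ).card : ℝ)
      = ∑ _e ∈ KE, (1 / 2 : ℝ) := by
    simp only [KE, Finset.sum_filter, Finset.sum_product]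
    rw [Finset.mul_sum]
    refine Finset.sum_congr rfl (fun x _ => ?_)
    rw [← Finset.sum_filter, Finset.sum_const, nsmul_eq_mul, mul_comm]
  rw [hL]
  refine le_trans (Finset.sum_le_sum (fun e he =>
    A.edge_ineq (lab ω e.1) e.2 (Finset.mem_filter.1 he).2)) ?_
  rw [Finset.sum_add_distrib, Finset.sum_add_distrib]
  have hTle : ∑ e ∈ KE, A.tw (lab ω e.1) e.2 ≤ cK n * Fintype.card (GL n J) := by
    refine (Finset.sum_le_sum_of_subset_of_nonneg (Finset.filter_subset _ _)
      (fun _ _ _ => abs_nonneg _)).trans ?_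
    rw [Finset.sum_product, mul_comm, ← nsmul_eq_mul]
    exact le_trans (Finset.sum_le_card_nsmul _ _ _ (fun x _ => A.sum_tw (lab ω x)))
      (le_of_eq (by simp))
  have hTle' : ∑ e ∈ KE, A.tw (flip e.2 (lab ω e.1)) e.2 ≤ cK n * Fintype.card (GL n J) := by
    refine le_trans (le_of_eq ?_) hTle
    refine Finset.sum_nbij' r r ?_ ?_ ?_ ?_ (fun e _ => rfl)
    · intro e he
      exact Finset.mem_filter.2 ⟨by simp, (Finset.mem_filter.1 he).2.symm⟩
    · intro e he
      exact Finset.mem_filter.2 ⟨by simp, (Finset.mem_filter.1 he).2.symm⟩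
    · intro e _; exact Prod.ext (mul_s_s _ _) rfl
    · intro e _; exact Prod.ext (mul_s_s _ _) rfl
  have hmin : ∑ e ∈ KE, ∑ p ∈ Lifts m (base (lab ω e.1)) e.2,
      min (A.w (lab ω e.1) p) (A.w (flip e.2 (lab ω e.1)) (flip e.2 p))
      = ∑ e ∈ pedges m ω, min (A.wt ω e.1) (A.wt ω (rev e).1) := by
    simp only [KE, pedges, states, Lifts, Finset.sum_filter, Finset.sum_product]
    refine Finset.sum_congr rfl (fun x _ => ?_)
    rw [← Finset.sum_filter, Finset.sum_comm' (t' := LabsBelow n m)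
      (s' := fun _ => Finset.univ.filter (fun i : Fin (cΔ n) => Kept ω x i))]
    · refine Finset.sum_congr rfl (fun p _ => ?_)
      rw [Finset.sum_filter]
      have hbl : base (lab ω x) = x.1 := rfl
      by_cases hb : base p = x.1
      · rw [if_pos hb]
        refine Finset.sum_congr rfl (fun i _ => ?_)
        by_cases hk : Kept ω x i <;> by_cases he : IsEdge i p <;>
          simp [hk, he, hb, hbl, Out, rev, nx, wt]
        rfl
      · rw [if_neg hb]
        refine Finset.sum_eq_zero (fun i _ => ?_)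
        simp [hbl, hb]
    · intro i p; simp [and_comm]
  have := A.peel j ω
  linarith

end Approx

/-- No finitely supported extension exists. -/
theorem no_approx (n m : ℕ) (A : Approx n m) : False := by
  classical
  set P := (LabsBelow n m).card
  set j := ct n * P + 1
  have hJ : 1 ≤ j := by omega
  have hbad := card_bad (n := n) (J := j) m j le_rfl
  have hk := kept_total (n := n) (J := j) hJ
  have hsum := Finset.sum_le_sum (s := (Finset.univ : Finset (Cfg n j)))
    (fun ω _ => A.per_config j ω)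
  rw [Finset.sum_add_distrib, Finset.sum_const, ← Finset.mul_sum, ← Finset.mul_sum,
    Finset.card_univ, nsmul_eq_mul] at hsum
  change (1 / 2 : ℝ) * _ ≤ (nCfg n j : ℝ) * _ + _ at hsum
  set Bd := ∑ ω : Cfg n j, ((badSet m j ω).card : ℝ)
  set N := (Fintype.card (GL n j) : ℝ)
  set Ω := (nCfg n j : ℝ)
  have hN : 0 < N := by
    have : 0 < Fintype.card (GL n j) := Fintype.card_pos_iff.2 ⟨1⟩
    simp only [N]; exact_mod_cast this
  have hΩ : 0 < Ω := by
    have h0 : 0 < cq n := cq_pos n
    have : 0 < nCfg n j := Fintype.card_pos_iff.2 ⟨fun _ => ⟨0, h0⟩⟩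
    simp only [Ω]; exact_mod_cast this
  have hB : (2 : ℝ) ^ j * Bd ≤ N * (P * Ω) := by
    simp only [Bd, N, Ω]; exact_mod_cast hbad
  have hpow : ((ct n : ℝ) * P) + 1 ≤ 2 ^ j := by
    have : ct n * P + 1 ≤ 2 ^ j := (Nat.lt_two_pow_self (n := j)).le
    exact_mod_cast this
  have hBd0 : 0 ≤ Bd := Finset.sum_nonneg (fun _ _ => Nat.cast_nonneg _)
  have htB : (ct n : ℝ) * Bd ≤ N * Ω := by
    by_contra hc
    push Not at hc
    have h1 : ((ct n : ℝ) * P + 1) * Bd ≤ N * (P * Ω) :=
      (mul_le_mul_of_nonneg_right hpow hBd0).trans hB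
    nlinarith [mul_le_mul_of_nonneg_left hc.le (Nat.cast_nonneg P : (0 : ℝ) ≤ P), mul_pos hN hΩ]
  have hu : (cu n : ℝ) = 40 * ((cK n : ℝ) + 1) := by
    rw [cu.eq_1]; push_cast; rfl
  have hK : (0 : ℝ) ≤ cK n := Nat.cast_nonneg _
  rw [hu] at hk
  nlinarith [mul_le_mul_of_nonneg_left htB hK, mul_pos hN hΩ]

end Vale.Agent.P090
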