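import Vale.Agent.P090.Girth
import Mathlib.Topology.MetricSpace.Basic
import Mathlib.Tactic.Ring
import Mathlib.Data.Fintype.Sigma
import Mathlib.Data.Fintype.Pi
import Mathlib.Data.Fintype.Prod

/-!
The uniformly discrete metric space of the counterexample.
-/

namespace Vale.Agent.P090

open Classical in
noncomputable instance (α : Type) [Fintype α] : Fintype (Equiv.Perm α) :=
  Fintype.ofFinite _

/-! Parameters of the `n`-th piece. -/

/-- The bound to be defeated. -/
def lam (n : ℕ) : ℕ := n + 1
/-- Bound for the total mass seen by the test functions. -/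
def cK (n : ℕ) : ℕ := 8 * lam n
/-- Distance of a label from its terminal. -/
def cR (n : ℕ) : ℕ := 96 * lam n
/-- Radius of the cut-off. -/
def cr (n : ℕ) : ℕ := 4 * (lam n * cR n + 2)
/-- Radius in which geodesics of the base graph are unique. -/
def cρ (n : ℕ) : ℕ := 2 * cr n + 3
/-- Girth of the base graph; also the truncation of distances. -/
def cg (n : ℕ) : ℕ := 2 * cρ n + 2 * cR n + 4
/-- Expected degree. -/
def cu (n : ℕ) : ℕ := 40 * (cK n + 1)
/-- Degree bound of the label graphs. -/
def ct (n : ℕ) : ℕ := 4 * (1 + cu n)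
/-- Inverse retention probability of a half-edge. -/
def cq (n : ℕ) : ℕ := 2 * ct n
/-- Degree of the base graph. -/
def cΔ (n : ℕ) : ℕ := cq n * cq n * cu n
/-- Diameter of the piece. -/
def cDiam (n : ℕ) : ℕ := 2 * cR n + cg n

attribute [irreducible] cK cR cr cρ cg cu ct cq cΔ

theorem cR_pos (n : ℕ) : 0 < cR n := by simp [cR, lam]

theorem cR_le_cr (n : ℕ) : cR n ≤ cr n := by
  have : 1 * cR n ≤ lam n * cR n := Nat.mul_le_mul_right _ (by simp [lam])
  simp only [cr]; omega

theorem cρ_lt (n : ℕ) : 2 * cρ n < cg n := by simp only [cg]; omega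

theorem two_R_lt (n : ℕ) : 2 * cR n + 1 < cg n := by simp only [cg]; omega

/-- The base group. -/
abbrev GB (n : ℕ) : Type := GG (cΔ n) (cg n)
/-- The base generators. -/
def PB (n : ℕ) : GirthGroup (cΔ n) (cg n) (GB n) := girthGroup _ _
/-- The covering group of level `J`. -/
abbrev GL (n J : ℕ) : Type := GB n × GG (cΔ n) J
/-- Its generators. -/
def PL (n J : ℕ) : GirthGroup (cΔ n) J (GL n J) := (PB n).pairLeft (girthGroup _ _)

theorem PL_fst (n J : ℕ) (i : Fin (cΔ n)) : ((PL n J).s i).1 = (PB n).s i := rfl

/-- Configurations of retained half-edges at level `J`. -/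
abbrev Cfg (n J : ℕ) : Type := GL n J × Fin (cΔ n) → Fin (cq n)

/-- Both halves of the edge are retained. -/
def Zero {n J : ℕ} (ω : Cfg n J) (x : GL n J) (i : Fin (cΔ n)) : Prop :=
  (ω (x, i)).val = 0 ∧ (ω (x * (PL n J).s i, i)).val = 0

open Classical in
/-- The number of retained edges at a vertex. -/
noncomputable def deg {n J : ℕ} (ω : Cfg n J) (x : GL n J) : ℕ :=
  (Finset.univ.filter (fun i => Zero ω x i)).card

/-- An edge of the level graph. -/
def Kept {n J : ℕ} (ω : Cfg n J) (x : GL n J) (i : Fin (cΔ n)) : Prop :=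
  Zero ω x i ∧ deg ω x ≤ ct n ∧ deg ω (x * (PL n J).s i) ≤ ct n

theorem mul_s_s {n J : ℕ} (x : GL n J) (i : Fin (cΔ n)) :
    x * (PL n J).s i * (PL n J).s i = x := by
  rw [mul_assoc, (PL n J).mul_self, mul_one]

theorem Kept.symm {n J : ℕ} {ω : Cfg n J} {x : GL n J} {i : Fin (cΔ n)} (h : Kept ω x i) :
    Kept ω (x * (PL n J).s i) i := by
  obtain ⟨⟨h₁, h₂⟩, h₃, h₄⟩ := h
  exact ⟨⟨h₂, (congrArg (fun y => (ω (y, i)).val) (mul_s_s x i)).trans h₁⟩, h₄,
    (congrArg (fun y => deg ω y) (mul_s_s x i)).trans_le h₃⟩

/-- Labels. -/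
abbrev Lab (n : ℕ) : Type := Σ J : ℕ, Cfg n J × GL n J

/-- The base vertex of a label. -/
def base {n : ℕ} (p : Lab n) : GB n := p.2.2.1

open Classical in
/-- The label graph. -/
noncomputable def labMoves (n : ℕ) : Moves (Fin (cΔ n)) (Lab n) where
  step i p := if Kept p.2.1 p.2.2 i then some ⟨p.1, p.2.1, p.2.2 * (PL n p.1).s i⟩ else none
  symm i p q h := by
    obtain ⟨J, ω, x⟩ := p
    simp only [Option.ite_none_right_eq_some, Option.some.injEq] at h
    obtain ⟨hk, rfl⟩ := h
    show (if Kept ω (x * (PL n J).s i) i then _ else _) = _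
    rw [if_pos hk.symm, mul_s_s]

theorem labMoves_step {n : ℕ} {i : Fin (cΔ n)} {p q : Lab n}
    (h : (labMoves n).step i p = some q) :
    Kept p.2.1 p.2.2 i ∧ q = ⟨p.1, p.2.1, p.2.2 * (PL n p.1).s i⟩ := by
  obtain ⟨J, ω, x⟩ := p
  simp only [labMoves, Option.ite_none_right_eq_some, Option.some.injEq] at h
  exact ⟨h.1, h.2.symm⟩

theorem base_step {n : ℕ} {i : Fin (cΔ n)} {p q : Lab n}
    (h : (labMoves n).step i p = some q) : base q = base p * (PB n).s i := by
  obtain ⟨-, rfl⟩ := labMoves_step h
  rfl

theorem base_map {n : ℕ} (i : Fin (cΔ n)) (p q : Lab n)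
    (h : (labMoves n).step i p = some q) : (PB n).moves.step i (base p) = some (base q) := by
  rw [base_step h]; rfl

/-- Truncated distance in the base graph. -/
noncomputable def gd {n : ℕ} (h u : GB n) : ℕ := (PB n).moves.cd (cg n) h u
/-- Truncated distance in the label graph. -/
noncomputable def ld {n : ℕ} (p q : Lab n) : ℕ := (labMoves n).cd (cg n) p q

theorem gd_le_ld {n : ℕ} (p q : Lab n) : gd (base p) (base q) ≤ ld p q :=
  (labMoves n).cd_map (PB n).moves base base_map _ p q

theorem gd_comm {n : ℕ} (h u : GB n) : gd h u = gd u h := Moves.cd_comm _ _ _ _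
theorem ld_comm {n : ℕ} (p q : Lab n) : ld p q = ld q p := Moves.cd_comm _ _ _ _
theorem gd_self {n : ℕ} (h : GB n) : gd h h = 0 := Moves.cd_self _ _ _
theorem ld_self {n : ℕ} (p : Lab n) : ld p p = 0 := Moves.cd_self _ _ _
theorem gd_triangle {n : ℕ} (a b c : GB n) : gd a c ≤ gd a b + gd b c :=
  Moves.cd_triangle _ _ _ _ _
theorem ld_triangle {n : ℕ} (a b c : Lab n) : ld a c ≤ ld a b + ld b c :=
  Moves.cd_triangle _ _ _ _ _
theorem gd_le {n : ℕ} (h u : GB n) : gd h u ≤ cg n := Moves.cd_le_cap _ _ _ _
theorem ld_le {n : ℕ} (p q : Lab n) : ld p q ≤ cg n := Moves.cd_le_cap _ _ _ _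

/-- The `n`-th piece: terminals and labels. -/
abbrev Piece (n : ℕ) : Type := GB n ⊕ Lab n

open Classical in
/-- The distance on the `n`-th piece. -/
noncomputable def dP {n : ℕ} : Piece n → Piece n → ℕ
  | .inl a, .inl b => if a = b then 0 else 2 * cR n + gd a b
  | .inl a, .inr q => cR n + gd a (base q)
  | .inr p, .inl b => cR n + gd (base p) b
  | .inr p, .inr q => min (ld p q) (2 * cR n + gd (base p) (base q))

theorem dP_self {n : ℕ} (x : Piece n) : dP x x = 0 := by
  rcases x with a | p <;> simp [dP, ld_self]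

theorem dP_comm {n : ℕ} (x y : Piece n) : dP x y = dP y x := by
  classical
  rcases x with a | p <;> rcases y with b | q
  · by_cases h : a = b
    · subst h; rfl
    · simp only [dP, if_neg h, if_neg (Ne.symm h), gd_comm a b]
  · simp only [dP, gd_comm a]
  · simp only [dP, gd_comm _ b]
  · simp only [dP, ld_comm p q, gd_comm (base p)]

theorem dP_eq_zero {n : ℕ} (x y : Piece n) (h : dP x y = 0) : x = y := by
  classical
  have hR := cR_pos n
  rcases x with a | p <;> rcases y with b | q
  · by_cases e : a = b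
    · rw [e]
    · simp only [dP, if_neg e] at h; omega
  · simp only [dP] at h; omega
  · simp only [dP] at h; omega
  · simp only [dP] at h
    have : ld p q = 0 := by omega
    exact congrArg _ ((labMoves n).eq_of_cd_eq_zero (by simp [cg]) this)

theorem dP_triangle {n : ℕ} (x y z : Piece n) : dP x z ≤ dP x y + dP y z := by
  classical
  rcases x with a | p <;> rcases y with b | q <;> rcases z with c | s
  · by_cases hac : a = c
    · simp [dP, hac]
    by_cases hab : a = b
    · subst hab; simp [dP]
    by_cases hbc : b = c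
    · subst hbc; simp [dP]
    simp only [dP, if_neg hac, if_neg hab, if_neg hbc]
    have := gd_triangle a b c; omega
  · by_cases hab : a = b
    · subst hab; simp [dP]
    simp only [dP, if_neg hab]
    have := gd_triangle a b (base s); omega
  · by_cases hac : a = c
    · simp [dP, hac]
    simp only [dP, if_neg hac]
    have := gd_triangle a (base q) c; omega
  · simp only [dP]
    have := gd_triangle a (base q) (base s); have := gd_le_ld q s; omega
  · by_cases hbc : b = c
    · subst hbc; simp [dP]
    simp only [dP, if_neg hbc]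
    have := gd_triangle (base p) b c; omega
  · simp only [dP]
    have := gd_triangle (base p) b (base s); omega
  · simp only [dP]
    have := gd_triangle (base p) (base q) c; have := gd_le_ld p q; omega
  · simp only [dP]
    have := gd_triangle (base p) (base q) (base s); have := ld_triangle p q s
    have := gd_le_ld p q; have := gd_le_ld q s; omega

theorem dP_le {n : ℕ} (x y : Piece n) : dP x y ≤ cDiam n := by
  classical
  rcases x with a | p <;> rcases y with b | q
  · by_cases h : a = b
    · simp [dP, h]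
    · simp only [dP, if_neg h, cDiam]; have := gd_le a b; omega
  · simp only [dP, cDiam]; have := gd_le a (base q); omega
  · simp only [dP, cDiam]; have := gd_le (base p) b; omega
  · simp only [dP, cDiam]; have := ld_le p q; omega

/-- The whole space: a base point and all pieces. -/
abbrev Space : Type := Option (Σ n, Piece n)

/-- The natural-number valued distance on the space. -/
noncomputable def dS : Space → Space → ℕ
  | none, none => 0
  | none, some x => cDiam x.1
  | some x, none => cDiam x.1
  | some x, some y => if h : y.1 = x.1 then dP x.2 (h ▸ y.2) else cDiam x.1 + cDiam y.1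

theorem dS_same {n : ℕ} (x y : Piece n) : dS (some ⟨n, x⟩) (some ⟨n, y⟩) = dP x y := by
  simp [dS]

theorem dS_ne {n m : ℕ} (h : n ≠ m) (x : Piece n) (y : Piece m) :
    dS (some ⟨n, x⟩) (some ⟨m, y⟩) = cDiam n + cDiam m := by
  simp [dS, Ne.symm h]

theorem dS_self (a : Space) : dS a a = 0 := by
  rcases a with _ | ⟨n, x⟩
  · rfl
  · rw [dS_same, dP_self]

theorem dS_comm (a b : Space) : dS a b = dS b a := by
  rcases a with _ | ⟨n, x⟩ <;> rcases b with _ | ⟨m, y⟩
  · rfl
  · rfl
  · rfl
  · by_cases h : n = m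
    · subst h; rw [dS_same, dS_same, dP_comm]
    · rw [dS_ne h, dS_ne (Ne.symm h), Nat.add_comm]

theorem dS_eq_zero (a b : Space) (h : dS a b = 0) : a = b := by
  have hp : ∀ n, 0 < cDiam n := fun n => by simp [cDiam, cg]
  rcases a with _ | ⟨n, x⟩ <;> rcases b with _ | ⟨m, y⟩
  · rfl
  · simp only [dS] at h; have := hp m; omega
  · simp only [dS] at h; have := hp n; omega
  · by_cases e : n = m
    · subst e; rw [dS_same] at h; rw [dP_eq_zero x y h]
    · rw [dS_ne e] at h; have := hp n; omega

theorem dS_triangle (a b c : Space) : dS a c ≤ dS a b + dS b c := by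
  rcases a with _ | ⟨n, x⟩ <;> rcases b with _ | ⟨m, y⟩ <;> rcases c with _ | ⟨k, z⟩
  · simp [dS]
  · simp [dS]
  · simp [dS]
  · by_cases e : m = k
    · subst e; simp only [dS_same]; simp [dS]
    · rw [dS_ne e]; simp only [dS]; omega
  · simp [dS]
  · by_cases e : n = k
    · subst e; rw [dS_same]; have := dP_le x z; simp only [dS]; omega
    · rw [dS_ne e]; simp [dS]
  · by_cases e : n = m
    · subst e; simp only [dS_same]; simp [dS]
    · rw [dS_ne e]; simp only [dS]; omega
  · by_cases e : n = k
    · subst e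
      by_cases e' : n = m
      · subst e'; simp only [dS_same]; exact dP_triangle x y z
      · rw [dS_same, dS_ne e', dS_ne (Ne.symm e')]; have := dP_le x z; omega
    · rw [dS_ne e]
      by_cases e' : n = m
      · subst e'; rw [dS_ne e]; omega
      · by_cases e'' : m = k
        · subst e''; rw [dS_ne e']; omega
        · rw [dS_ne e', dS_ne e'']; omega

noncomputable instance : MetricSpace Space where
  dist a b := (dS a b : ℝ)
  dist_self a := by show (dS a a : ℝ) = 0; rw [dS_self, Nat.cast_zero]
  dist_comm a b := by show (dS a b : ℝ) = dS b a; rw [dS_comm]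
  dist_triangle a b c := by
    show (dS a c : ℝ) ≤ dS a b + dS b c
    exact_mod_cast dS_triangle a b c
  eq_of_dist_eq_zero {a b} h := dS_eq_zero a b (Nat.cast_eq_zero.1 h)

theorem dist_eq (a b : Space) : dist a b = (dS a b : ℝ) := rfl

theorem one_le_dist {a b : Space} (h : a ≠ b) : (1 : ℝ) ≤ dist a b := by
  rw [dist_eq]
  exact_mod_cast Nat.one_le_iff_ne_zero.2 (fun e => h (dS_eq_zero a b e))

end Vale.Agent.P090
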