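import Vale.Agent.P090.Geometry
import Mathlib.Analysis.Normed.Field.Basic
import Mathlib.Tactic.LinearCombination

/-!
Test functions on a piece and their Lipschitz bounds.
-/

namespace Vale.Agent.P090

open Finset

variable {n : ℕ}

/-- The Lipschitz constant of the test functions. -/
noncomputable def cL (n : ℕ) : ℝ := 2 / cR n

theorem cL_nonneg (n : ℕ) : 0 ≤ cL n := div_nonneg (by norm_num) (cRr_pos n).le

/-- Lipschitz criterion: bounded by `1` and small increments along label edges. -/
theorem lip_of_edge (f : Piece n → ℝ) (hb : ∀ x, |f x| ≤ 1)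
    (he : ∀ i p q, (labMoves n).step i p = some q → |f (.inr p) - f (.inr q)| ≤ cL n)
    (x y : Piece n) : |f x - f y| ≤ cL n * dP x y := by
  classical
  have far : ∀ x y : Piece n, cR n ≤ dP x y → |f x - f y| ≤ cL n * dP x y := by
    intro x y h
    have h' : (cR n : ℝ) ≤ (dP x y : ℝ) := by exact_mod_cast h
    calc |f x - f y| ≤ |f x| + |f y| := abs_sub _ _
      _ ≤ 1 + 1 := add_le_add (hb x) (hb y)
      _ = cL n * cR n := by rw [cL, div_mul_cancel₀ _ (cRr_pos n).ne']; norm_num
      _ ≤ cL n * dP x y := mul_le_mul_of_nonneg_left h' (cL_nonneg n)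
  rcases x with a | p <;> rcases y with b | q
  · by_cases e : a = b
    · subst e; simp [dP_self]
    · exact far _ _ (by simp only [dP, if_neg e]; omega)
  · exact far _ _ (by simp only [dP]; omega)
  · exact far _ _ (by simp only [dP]; omega)
  · by_cases h : cR n ≤ dP (.inr p : Piece n) (.inr q)
    · exact far _ _ h
    · have hg := two_R_lt n
      have hlt : ld p q < cg n := by simp only [dP] at h; omega
      have heq : dP (.inr p : Piece n) (.inr q) = ld p q := by simp only [dP] at h ⊢; omega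
      obtain ⟨w, -, hl, hw⟩ := (labMoves n).exists_walk_of_cd_lt hlt
      rw [heq]
      refine ((labMoves n).abs_sub_le_of_walk (fun z => f (.inr z)) (cL n) he w p q hw).trans ?_
      exact mul_le_mul_of_nonneg_left (by exact_mod_cast hl) (cL_nonneg n)

/-- The base vertex of a point. -/
def bp : Piece n → GB n
  | .inl a => a
  | .inr p => base p

theorem gd_bp_le (x y : Piece n) : gd (bp x) (bp y) ≤ dP x y := by
  classical
  rcases x with a | p <;> rcases y with b | q
  · by_cases e : a = b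
    · subst e; simp [bp, gd_self]
    · simp only [dP, bp, if_neg e]; omega
  · simp only [dP, bp]; omega
  · simp only [dP, bp]; omega
  · simp only [dP, bp]; have := gd_le_ld p q; omega

/-- The cut-off as a function on the piece. -/
noncomputable def Cf (h : GB n) (i : Fin (cΔ n)) (x : Piece n) : ℝ := chi h i (bp x)

theorem Cf_lip (h : GB n) (i : Fin (cΔ n)) (x y : Piece n) :
    |Cf h i x - Cf h i y| ≤ 1 / cr n * dP x y := by
  refine (chi_lip h i _ _).trans ?_
  rw [one_div, ← div_eq_inv_mul]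
  refine div_le_div_of_nonneg_right ?_ (cr_pos n).le
  exact_mod_cast gd_bp_le x y

theorem Cf_abs (h : GB n) (i : Fin (cΔ n)) (x : Piece n) : |Cf h i x| ≤ 1 := by
  rw [Cf, abs_of_nonneg (chi_nonneg _ _ _)]; exact chi_le_one _ _ _

/-- All labels of levels below `m`. -/
noncomputable def LabsBelow (n m : ℕ) : Finset (Lab n) :=
  (Finset.range m).sigma (fun _ => Finset.univ)

theorem mem_labsBelow {m : ℕ} {p : Lab n} : p ∈ LabsBelow n m ↔ p.1 < m := by
  simp [LabsBelow]

open Classical in
/-- Retained edges of colour `i` at labels over `h` of level below `m`. -/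
noncomputable def Lifts (m : ℕ) (h : GB n) (i : Fin (cΔ n)) : Finset (Lab n) :=
  (LabsBelow n m).filter (fun p => base p = h ∧ IsEdge i p)

theorem mem_lifts {m : ℕ} {h : GB n} {i : Fin (cΔ n)} {p : Lab n} :
    p ∈ Lifts m h i ↔ p.1 < m ∧ base p = h ∧ IsEdge i p := by
  simp [Lifts, mem_labsBelow]

theorem flip_mem_lifts {m : ℕ} {h : GB n} {i : Fin (cΔ n)} {p : Lab n} (hp : p ∈ Lifts m h i) :
    flip i p ∈ Lifts m (nb h i) i := by
  obtain ⟨h₁, h₂, h₃⟩ := mem_lifts.1 hp
  exact mem_lifts.2 ⟨h₁, by rw [base_flip, h₂], h₃.flip⟩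

theorem sum_lifts_flip (m : ℕ) (h : GB n) (i : Fin (cΔ n)) (F : Lab n → ℝ) :
    ∑ p ∈ Lifts m h i, F (flip i p) = ∑ p ∈ Lifts m (nb h i) i, F p :=
  Finset.sum_nbij' (flip i) (flip i) (fun p hp => flip_mem_lifts hp)
    (fun p hp => by simpa [nb_nb] using flip_mem_lifts hp)
    (fun p _ => flip_flip i p) (fun p _ => flip_flip i p) (fun p _ => rfl)

/-- How near a label is to a retained edge over `(h, i)`. -/
noncomputable def near (m : ℕ) (h : GB n) (i : Fin (cΔ n)) (z : Lab n) : ℝ :=
  ∑ p ∈ Lifts m h i, bump i p z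

theorem near_symm (m : ℕ) (h : GB n) (i : Fin (cΔ n)) (z : Lab n) :
    near m (nb h i) i z = near m h i z := by
  rw [near, near, ← sum_lifts_flip m h i (fun p => bump i p z)]
  exact Finset.sum_congr rfl (fun p _ => bump_flip i p z)

theorem near_combo (m : ℕ) (h : GB n) (i : Fin (cΔ n)) :
    (∀ z, |near m h i z| ≤ 1) ∧
      ∀ z z', ld z z' ≤ 1 → |near m h i z - near m h i z'| ≤ 1 / cR n := by
  have := combo_bump (h := h) (Lifts m h i) (fun _ => i)
    (fun p hp => ⟨(mem_lifts.1 hp).2.1, (mem_lifts.1 hp).2.2⟩) (fun _ => 1) (fun _ => by simp)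
  simpa only [one_mul, near] using this

theorem near_nonneg (m : ℕ) (h : GB n) (i : Fin (cΔ n)) (z : Lab n) : 0 ≤ near m h i z :=
  Finset.sum_nonneg (fun _ _ => bump_nonneg _ _ _)

theorem near_le_one (m : ℕ) (h : GB n) (i : Fin (cΔ n)) (z : Lab n) : near m h i z ≤ 1 :=
  (le_abs_self _).trans ((near_combo m h i).1 z)

theorem near_eq_one {m : ℕ} {h : GB n} {i : Fin (cΔ n)} {p : Lab n} (hp : p ∈ Lifts m h i) :
    near m h i (flip i p) = 1 := by
  refine le_antisymm (near_le_one _ _ _ _) ?_
  rw [← bump_at_flip i p]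
  exact Finset.single_le_sum (f := fun q => bump i q (flip i p))
    (fun q _ => bump_nonneg _ _ _) hp

open Classical in
/-- Indicator that `u` lies in direction `i` from `h`. -/
noncomputable def side (h : GB n) (i : Fin (cΔ n)) (u : GB n) : ℝ :=
  if pre h u = some i then 1 else 0

open Classical in
/-- The `toward` test function. -/
noncomputable def Tf (m : ℕ) (h : GB n) (i : Fin (cΔ n)) : Piece n → ℝ
  | .inl a => chi h i a * side h i a
  | .inr z => if z.1 < m then chi h i (base z) * side h i (base z) * (1 - near m h i z) else 0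

open Classical in
/-- The test function of one retained edge. -/
noncomputable def Ef (m : ℕ) (h : GB n) (i : Fin (cΔ n)) (p : Lab n) : Piece n → ℝ
  | .inl _ => 0
  | .inr z => if z.1 < m then chi h i (base z) * bump i p z else 0

theorem Ef_flip (m : ℕ) (h : GB n) (i : Fin (cΔ n)) (p : Lab n) :
    Ef m (nb h i) i (flip i p) = Ef m h i p := by
  funext x
  rcases x with a | z
  · rfl
  · simp only [Ef, chi_symm, bump_flip]

theorem side_add {h u : GB n} {i : Fin (cΔ n)} :
    chi h i u * side h i u + chi h i u * side (nb h i) i u = chi h i u := by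
  classical
  by_cases h0 : 2 * cr n + 1 ≤ gd h u
  · simp [chi_eq_zero h0]
  · have hd : gd h u ≤ 2 * cr n + 1 := by omega
    by_cases hp : pre h u = some i
    · simp [side, hp, (pre_swap hd).1 hp]
    · have : pre (nb h i) u = some i := by
        by_contra hc; exact hp ((pre_swap hd).2 hc)
      simp [side, hp, this]

/-- Pointwise decomposition of the cut-off. -/
theorem decomp {m : ℕ} (h : GB n) (i : Fin (cΔ n)) (x : Piece n)
    (hx : ∀ z, x = .inr z → z.1 < m) :
    Cf h i x = Tf m h i x + Tf m (nb h i) i x + ∑ p ∈ Lifts m h i, Ef m h i p x := by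
  rcases x with a | z
  · simp only [Cf, bp, Tf, Ef, Finset.sum_const_zero, add_zero, chi_symm]
    exact side_add.symm
  · have hz := hx z rfl
    simp only [Cf, bp, Tf, Ef, if_pos hz, chi_symm, near_symm, ← Finset.mul_sum]
    simp only [near]
    linear_combination (-(1 - ∑ p ∈ Lifts m h i, bump i p z)) * (side_add (h := h) (u := base z) (i := i))

theorem abs_prod_sub {a a' b b' e : ℝ} (ha : |a - a'| ≤ e) (hb : |b - b'| ≤ e)
    (ha' : |a'| ≤ 1) (hb0 : |b| ≤ 1) : |a * b - a' * b'| ≤ 2 * e := by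
  have he : 0 ≤ e := (abs_nonneg _).trans ha
  calc |a * b - a' * b'| = |(a - a') * b + a' * (b - b')| := by ring_nf
    _ ≤ |a - a'| * |b| + |a'| * |b - b'| := by
      rw [← abs_mul, ← abs_mul]; exact abs_add_le _ _
    _ ≤ e * 1 + 1 * e := add_le_add (mul_le_mul ha hb0 (abs_nonneg _) he)
      (mul_le_mul ha' hb (abs_nonneg _) zero_le_one)
    _ = 2 * e := by ring

theorem two_mul_inv_R (n : ℕ) : 2 * (1 / (cR n : ℝ)) = cL n := by rw [cL]; ring

theorem step_same_level {i : Fin (cΔ n)} {p q : Lab n} (h : (labMoves n).step i p = some q) :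
    q.1 = p.1 ∧ base q = nb (base p) i ∧ ld p q ≤ 1 := by
  refine ⟨?_, base_step h, (labMoves n).cd_step h⟩
  obtain ⟨-, rfl⟩ := isEdge_of_step h
  rfl

/-- A combination of the `toward` functions at `h`. -/
noncomputable def Tcombo (m : ℕ) (h : GB n) (c : Fin (cΔ n) → ℝ) (x : Piece n) : ℝ :=
  ∑ i, c i * Tf m h i x

theorem Tcombo_inl_self (m : ℕ) (h : GB n) (c : Fin (cΔ n) → ℝ) :
    Tcombo m h c (.inl h) = 0 := by
  simp [Tcombo, Tf, side, pre_self]

theorem Tcombo_some {m : ℕ} {h : GB n} (c : Fin (cΔ n) → ℝ) {z : Lab n} (hz : z.1 < m)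
    {a : Fin (cΔ n)} (ha : pre h (base z) = some a) :
    Tcombo m h c (.inr z) = c a * (chi h a (base z) * (1 - near m h a z)) := by
  classical
  rw [Tcombo, Finset.sum_eq_single_of_mem a (Finset.mem_univ a) (fun i _ hi => by
    simp [Tf, hz, side, ha, Ne.symm hi])]
  simp [Tf, hz, side, ha]

theorem Tcombo_none {m : ℕ} {h : GB n} (c : Fin (cΔ n) → ℝ) {z : Lab n}
    (ha : pre h (base z) = none) : Tcombo m h c (.inr z) = 0 := by
  classical
  exact Finset.sum_eq_zero (fun i _ => by simp [Tf, side, ha])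

theorem Tcombo_far {m : ℕ} {h : GB n} (c : Fin (cΔ n) → ℝ) {z : Lab n}
    (hd : 2 * cr n + 1 ≤ gd h (base z)) : Tcombo m h c (.inr z) = 0 := by
  classical
  exact Finset.sum_eq_zero (fun i _ => by simp [Tf, chi_eq_zero hd])

theorem Tcombo_abs (m : ℕ) (h : GB n) (c : Fin (cΔ n) → ℝ) (hc : ∀ i, |c i| ≤ 1)
    (x : Piece n) : |Tcombo m h c x| ≤ 1 := by
  classical
  rcases x with a | z
  · cases ha : pre h a with
    | none => simp [Tcombo, Tf, side, ha]
    | some b =>
      rw [Tcombo, Finset.sum_eq_single_of_mem b (Finset.mem_univ b) (fun i _ hi => by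
        simp [Tf, side, ha, Ne.symm hi])]
      simp only [Tf, side, ha, if_pos, mul_one, abs_mul, abs_of_nonneg (chi_nonneg _ _ _)]
      exact mul_le_one₀ (hc b) (chi_nonneg _ _ _) (chi_le_one _ _ _)
  · by_cases hz : z.1 < m
    · cases ha : pre h (base z) with
      | none => simp [Tcombo_none c ha]
      | some b =>
        rw [Tcombo_some c hz ha, abs_mul]
        refine mul_le_one₀ (hc b) (abs_nonneg _) ?_
        rw [abs_mul, abs_of_nonneg (chi_nonneg _ _ _),
          abs_of_nonneg (sub_nonneg.2 (near_le_one _ _ _ _))]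
        exact mul_le_one₀ (chi_le_one _ _ _) (sub_nonneg.2 (near_le_one _ _ _ _))
          (sub_le_self _ (near_nonneg _ _ _ _))
    · simp [Tcombo, Tf, hz]

theorem Tcombo_at_centre {m : ℕ} {h : GB n} (c : Fin (cΔ n) → ℝ) {j : Fin (cΔ n)} {z : Lab n}
    (hz : z.1 < m) (he : IsEdge j z) (hb : base z = h) :
    Tcombo m h c (.inr (flip j z)) = 0 := by
  have hpre : pre h (base (flip j z)) = some j := by rw [base_flip, hb]; exact pre_nb h j
  rw [Tcombo_some (z := flip j z) c hz hpre, near_eq_one (mem_lifts.2 ⟨hz, hb, he⟩)]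
  ring

theorem Tcombo_lip (m : ℕ) (h : GB n) (c : Fin (cΔ n) → ℝ) (hc : ∀ i, |c i| ≤ 1)
    (x y : Piece n) : |Tcombo m h c x - Tcombo m h c y| ≤ cL n * dP x y := by
  classical
  refine lip_of_edge _ (Tcombo_abs m h c hc) ?_ x y
  intro j p q hstep
  obtain ⟨hlev, hbase, hld⟩ := step_same_level hstep
  obtain ⟨hedge, hq⟩ := isEdge_of_step hstep
  by_cases hm : p.1 < m
  swap
  · have hqm : ¬ q.1 < m := by omega
    simp [Tcombo, Tf, hm, hqm, cL_nonneg]
  have hqm : q.1 < m := by omega
  by_cases hu : base p = h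
  · rw [Tcombo_none c (by rw [hu]; exact pre_self h), hq, Tcombo_at_centre c hm hedge hu]
    simpa using cL_nonneg n
  by_cases hu' : base q = h
  · have hp' : p = flip j q := by rw [hq, flip_flip]
    rw [Tcombo_none (z := q) c (by rw [hu']; exact pre_self h), hp',
      Tcombo_at_centre c hqm (hq ▸ hedge.flip) hu']
    simpa using cL_nonneg n
  by_cases hd : gd h (base p) ≤ 2 * cr n + 1
  · have hpre := pre_step hd hu (hbase ▸ hu')
    rw [← hbase] at hpre
    cases ha : pre h (base p) with
    | none => simp [Tcombo_none c ha, Tcombo_none c (hpre ▸ ha), cL_nonneg]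
    | some a =>
      rw [Tcombo_some c hm ha, Tcombo_some c hqm (hpre ▸ ha), ← mul_sub, abs_mul,
        ← two_mul_inv_R]
      refine (mul_le_of_le_one_left (abs_nonneg _) (hc a)).trans (abs_prod_sub ?_ ?_ ?_ ?_)
      · rw [hbase]; exact chi_step_lip h a (base p) j
      · rw [sub_sub_sub_cancel_left, abs_sub_comm]
        exact (near_combo m h a).2 p q hld
      · rw [abs_of_nonneg (chi_nonneg _ _ _)]; exact chi_le_one _ _ _
      · rw [abs_of_nonneg (sub_nonneg.2 (near_le_one _ _ _ _))]
        exact sub_le_self _ (near_nonneg _ _ _ _)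
  · have h1 := gd_triangle h (base q) (base p)
    have h2 : gd (base q) (base p) ≤ 1 := by
      rw [gd_comm, hbase]; exact gd_nb _ _
    rw [Tcombo_far c (by omega), Tcombo_far c (by omega)]
    simpa using cL_nonneg n

/-- A combination of edge functions over one base vertex. -/
noncomputable def Ecombo (m : ℕ) (h : GB n) (S : Finset (Lab n)) (ι : Lab n → Fin (cΔ n))
    (c : Lab n → ℝ) (x : Piece n) : ℝ :=
  ∑ p ∈ S, c p * Ef m h (ι p) p x

theorem Ecombo_inl (m : ℕ) (h : GB n) (S : Finset (Lab n)) (ι : Lab n → Fin (cΔ n))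
    (c : Lab n → ℝ) (a : GB n) : Ecombo m h S ι c (.inl a) = 0 := by
  simp [Ecombo, Ef]

theorem Ecombo_bound (m : ℕ) (h : GB n) (S : Finset (Lab n)) (ι : Lab n → Fin (cΔ n))
    (hS : ∀ p ∈ S, base p = h ∧ IsEdge (ι p) p) (c : Lab n → ℝ) (hc : ∀ p, |c p| ≤ 1) :
    (∀ x, |Ecombo m h S ι c x| ≤ 1) ∧
    ∀ x y, |Ecombo m h S ι c x - Ecombo m h S ι c y| ≤ cL n * dP x y := by
  classical
  have hb : ∀ x, |Ecombo m h S ι c x| ≤ 1 := by
    intro x
    rcases x with a | z
    · simp [Ecombo_inl]
    · by_cases hz : z.1 < m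
      · have := (combo_bump S ι hS (fun p => c p * chi h (ι p) (base z)) (fun p => by
          rw [abs_mul]
          exact mul_le_one₀ (hc p) (abs_nonneg _)
            ((abs_of_nonneg (chi_nonneg _ _ _)).trans_le (chi_le_one _ _ _)))).1 z
        simpa [Ecombo, Ef, hz, mul_assoc] using this
      · simp [Ecombo, Ef, hz]
  refine ⟨hb, lip_of_edge _ hb ?_⟩
  intro j z z' hstep
  obtain ⟨hlev, hbase, hld⟩ := step_same_level hstep
  by_cases hm : z.1 < m
  swap
  · have hqm : ¬ z'.1 < m := by omega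
    simp [Ecombo, Ef, hm, hqm, cL_nonneg]
  have hqm : z'.1 < m := by omega
  have hsplit : Ecombo m h S ι c (.inr z) - Ecombo m h S ι c (.inr z')
      = ∑ p ∈ S, c p * (chi h (ι p) (base z) * bump (ι p) p z
          - chi h (ι p) (base z') * bump (ι p) p z') := by
    simp [Ecombo, Ef, hm, hqm, mul_sub]
  rw [hsplit]
  by_cases h0 : ∃ p ∈ S, bump (ι p) p z ≠ 0 ∨ bump (ι p) p z' ≠ 0
  · obtain ⟨p, hp, hne⟩ := h0
    rw [Finset.sum_eq_single_of_mem p hp (fun p' hp' hne' => by
      have hb' := (hS p' hp').1.trans (hS p hp).1.symm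
      have key : ∀ y y' : Lab n, ld y y' ≤ 1 → bump (ι p) p y' ≠ 0 → bump (ι p') p' y = 0 := by
        intro y y' hy hy'
        by_contra hc'
        exact hne' (centre_unique hb' (hS p' hp').2 (hS p hp).2 hc' hy' hy)
      have hz0 : ∀ y : Lab n, ld y y ≤ 1 := fun y => (ld_self y).trans_le (Nat.zero_le 1)
      have hz' : ld z' z ≤ 1 := (ld_comm z' z).trans_le hld
      rcases hne with hne | hne
      · rw [key z z (hz0 z) hne, key z' z hz' hne]; simp
      · rw [key z z' hld hne, key z' z' (hz0 z') hne]; simp)]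
    rw [abs_mul, ← two_mul_inv_R]
    refine (mul_le_of_le_one_left (abs_nonneg _) (hc p)).trans (abs_prod_sub ?_ ?_ ?_ ?_)
    · rw [hbase]; exact chi_step_lip h (ι p) (base z) j
    · exact bump_lip _ _ hld
    · rw [abs_of_nonneg (chi_nonneg _ _ _)]; exact chi_le_one _ _ _
    · rw [abs_of_nonneg (bump_nonneg _ _ _)]; exact bump_le_one _ _ _
  · push Not at h0
    rw [Finset.sum_eq_zero (fun p hp => by rw [(h0 p hp).1, (h0 p hp).2]; simp), abs_zero]
    exact cL_nonneg n

end Vale.Agent.P090
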